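import Vale.Agent.P078.Tr.Iter.Step.Expand.Num
import Vale.Agent.P078.Tr.Iter.Step.Expand.Values

/-!
# P078, step: part Expand
-/

open scoped ComplexOrder InnerProductSpace

noncomputable section

namespace Vale.Agent.P078.Tr.Iter

open Tracial

universe u

namespace Expand

variable {H : Type u} [NormedAddCommGroup H] [InnerProductSpace ℂ H] [CompleteSpace H]
  {S : Tracial H} {P : Par} {y : Op H} {z : St S P.r} {d : Fin P.r → Op H}

theorem bump_K (h : z.Core P) {c : Fin P.r} (hd : d c ∈ S.A) (hl : z.live c * d c = d c)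
    (σ : Bool) : (z.bump d).K y c σ = z.K y c σ + d c := by
  have hs : d c * z.sup c = d c := by
    rw [S.comm _ hd _ (h.sup_mem c), ← hl, ← mul_assoc, h.sup_mul_live]
  change (z.a c + d c) * z.sup c - _ + _ + _ = _
  rw [add_mul, hs, St.K]
  simp only [St.sup, St.bump]
  abel

theorem ev_small (hd : ∀ c, d c ∈ S.A ∧ IsSelfAdjoint (d c) ∧ z.live c * d c = d c ∧
      ‖d c‖ ≤ P.tau / 2) (c : Fin P.r) (χ : S.Chi) :
    |S.ev χ (d c)| ≤ ‖d c‖ ∧ |S.ev χ (d c)| ≤ P.tau / 2 :=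
  ⟨abs_ev_le (hd c).1, (abs_ev_le (hd c).1).trans (hd c).2.2.2⟩

theorem bump_loose (hP : P.Ok) (h : z.Strict P y)
    (hd : ∀ c, d c ∈ S.A ∧ IsSelfAdjoint (d c) ∧ z.live c * d c = d c ∧ ‖d c‖ ≤ P.tau / 2) :
    (z.bump d).Loose P y := by
  have ht := hP.tau_le
  have hev : ∀ c (χ : S.Chi), S.ev χ (z.a c + d c) = S.ev χ (z.a c) + S.ev χ (d c) := fun c χ =>
    ev_add (h.a_mem c) (hd c).1
  have hoff : ∀ c (χ : S.Chi), S.ev χ (z.live c) = 0 → S.ev χ (d c) = 0 := fun c χ e => by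
    rw [← (hd c).2.2.1, ev_mul (h.live_mem c) (hd c).1 (h.live_proj c).isSelfAdjoint, e, zero_mul]
  have hcore : (z.bump d).Core P :=
    { h.toCore with
      a_mem := fun c => add_mem (h.a_mem c) (hd c).1
      a_sa := fun c => (h.a_sa c).add (hd c).2.1
      a_ge := fun c χ => by
        show 1 ≤ S.ev χ (z.a c + d c)
        rw [hev]
        rcases h.toCore.ev_live c χ with e | e
        · rw [hoff c χ e, add_zero]; exact h.a_ge c χ
        · have := (abs_le.1 (ev_small hd c χ).2).1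
          linarith [(h.live_a c χ e).1]
      fro_a := fun c χ e => by
        show S.ev χ (z.a c + d c) ≤ 500
        have h0 : S.ev χ (z.live c) = 0 := by
          have h1 : S.ev χ (z.live c) * S.ev χ (z.fro c) = 0 := by
            rw [← ev_mul (h.live_mem c) (h.fro_mem c) (h.live_proj c).isSelfAdjoint,
              h.toCore.live_mul_fro, ev_zero]
          have e' : S.ev χ (z.fro c) = 1 := e
          rwa [e', mul_one] at h1
        rw [hev, hoff c χ h0, add_zero]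
        exact h.fro_a c χ e }
  refine { hcore with K_lo := fun c σ => ?_, live_a := fun c χ e => ?_ }
  · rw [bump_K h.toCore (hd c).1 (hd c).2.2.1]
    have h1 : (-(P.tau / 2)) • (1 : Op H) ≤ d c :=
      (le_iff (smul_real_mem _ (one_mem _)) (hd c).1 (isSelfAdjoint_smul_one _) (hd c).2.1).2
        fun χ => by
          rw [ev_smul _ (one_mem _), ev_one, mul_one]
          linarith [(abs_le.1 (ev_small hd c χ).2).1]
    refine le_trans (le_of_eq ?_) (add_le_add (h.K_lo c σ) h1)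
    rw [← add_smul]
    congr 1
    ring
  · show 499 ≤ S.ev χ (z.a c + d c) ∧ S.ev χ (z.a c + d c) ≤ 1 / P.c0 + 1
    rw [hev]
    obtain ⟨h1, h2⟩ := abs_le.1 (ev_small hd c χ).2
    have := h.live_a c χ e
    constructor <;> linarith

/-- A bound for the resolvents and for the inverses of their expectations. -/
def bound (P : Par) : ℝ := 2 / P.tau + 1 / P.c0 + 2

theorem one_le_bound (hP : P.Ok) : 1 ≤ bound P := by
  have := div_nonneg zero_le_two hP.tau_pos.le
  have := div_nonneg zero_le_one hP.c0_pos.le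
  rw [bound]; linarith

/-- The words in a resolvent, at norm level. -/
theorem words {M n : ℝ} {G G' b : Op H} (hM : 0 ≤ M) (hG : ‖G‖ ≤ M) (hG' : ‖G'‖ ≤ M)
    (hb : ‖b‖ ≤ n) :
    ‖G * b * G‖ ≤ M ^ 2 * n ∧ ‖G * b * G * b * G‖ ≤ M ^ 3 * n ^ 2 ∧
      ‖G * b * G * b * G * b * G'‖ ≤ M ^ 4 * n ^ 3 := by
  have hn : 0 ≤ n := (norm_nonneg b).trans hb
  have h0 : ‖G * b‖ ≤ M * n := (norm_mul_le _ _).trans (mul_le_mul hG hb (norm_nonneg _) hM)
  have h1 : ‖G * b * G‖ ≤ M * n * M :=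
    (norm_mul_le _ _).trans (mul_le_mul h0 hG (norm_nonneg _) (by positivity))
  have h2 : ‖G * b * G * b‖ ≤ M * n * M * n :=
    (norm_mul_le _ _).trans (mul_le_mul h1 hb (norm_nonneg _) (by positivity))
  have h3 : ‖G * b * G * b * G‖ ≤ M * n * M * n * M :=
    (norm_mul_le _ _).trans (mul_le_mul h2 hG (norm_nonneg _) (by positivity))
  have h4 : ‖G * b * G * b * G * b‖ ≤ M * n * M * n * M * n :=
    (norm_mul_le _ _).trans (mul_le_mul h3 hb (norm_nonneg _) (by positivity))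
  have h5 : ‖G * b * G * b * G * b * G'‖ ≤ M * n * M * n * M * n * M :=
    (norm_mul_le _ _).trans (mul_le_mul h4 hG' (norm_nonneg _) (by positivity))
  exact ⟨h1.trans (le_of_eq (by ring)), h3.trans (le_of_eq (by ring)),
    h5.trans (le_of_eq (by ring))⟩

/-- The resolvent after the bump, and its norms. -/
theorem resolvents (hP : P.Ok) (hy : y ∈ S.M) (h : z.Strict P y)
    (hd : ∀ c, d c ∈ S.A ∧ IsSelfAdjoint (d c) ∧ z.live c * d c = d c ∧ ‖d c‖ ≤ P.tau / 2)
    (c : Fin P.r) (σ : Bool) :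
    z.G y c σ ∈ S.M ∧ (z.bump d).G y c σ ∈ S.M ∧ IsSelfAdjoint (z.G y c σ) ∧
      ‖z.G y c σ‖ ≤ bound P ∧ ‖(z.bump d).G y c σ‖ ≤ bound P ∧
      (z.bump d).G y c σ = z.G y c σ - z.G y c σ * d c * z.G y c σ +
        z.G y c σ * d c * z.G y c σ * d c * z.G y c σ -
        z.G y c σ * d c * z.G y c σ * d c * z.G y c σ * d c * (z.bump d).G y c σ := by
  have h' := bump_loose hP h hd
  have ht2 : 0 < P.tau / 2 := half_pos hP.tau_pos
  have hc0 := div_nonneg zero_le_one hP.c0_pos.le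
  have hti : 0 ≤ P.tau⁻¹ := inv_nonneg.2 hP.tau_pos.le
  have e2 : 2 / P.tau = 2 * P.tau⁻¹ := div_eq_mul_inv _ _
  refine ⟨h.toCore.G_mem hy c σ, h'.toCore.G_mem hy c σ,
    inverse_isSelfAdjoint (isSelfAdjoint_of_le (h.K_lo c σ)),
    (norm_inverse_le hP.tau_pos (h.K_lo c σ)).trans (by rw [bound, e2]; linarith),
    (norm_inverse_le ht2 (h'.K_lo c σ)).trans (by rw [bound, inv_div]; linarith), ?_⟩
  have hu := isUnit_of_le hP.tau_pos (h.K_lo c σ)
  have hu' := isUnit_of_le ht2 (h'.K_lo c σ)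
  rw [bump_K h.toCore (hd c).1 (hd c).2.2.1] at hu'
  have := inverse_expand hu hu'
  rw [← bump_K h.toCore (hd c).1 (hd c).2.2.1] at this
  exact this

theorem point (hB : Basics S) (hP : P.Ok) (hy : y ∈ S.M) (hyE : S.E y = 0) (h : z.Strict P y)
    (hd : ∀ c, d c ∈ S.A ∧ IsSelfAdjoint (d c) ∧ z.live c * d c = d c ∧ ‖d c‖ ≤ P.tau / 2)
    (c : Fin P.r) (χ : S.Chi) (hl : S.ev χ (z.live c) = 1) :
    |S.ev χ ((z.bump d).side y c).pot * S.ev χ ((z.bump d).side y c).fz -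
        S.ev χ (z.side y c).pot * S.ev χ (z.side y c).fz -
        S.ev χ ((z.side y c).first (d c)) - S.ev χ ((z.side y c).quad (d c))| ≤
      232 * bound P ^ 16 * ‖d c‖ ^ 3 := by
  have h' := bump_loose hP h hd
  have hb := (hd c).1
  have hbs := (hd c).2.1
  have hn1 : ‖d c‖ ≤ 1 := (hd c).2.2.2.trans (by linarith [hP.tau_le])
  set n := ‖d c‖ with hn
  have hM := one_le_bound (P := P) hP
  have hA := h.live_a c χ hl
  set A := S.ev χ (z.a c) with hAdef
  set t := S.ev χ (d c) with htdef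
  have ht : |t| ≤ n := (ev_small hd c χ).1
  have ht2 : 0 < P.tau / 2 := half_pos hP.tau_pos
  have hA' : S.ev χ ((z.bump d).a c) = A + t := ev_add (h.a_mem c) hb
  have hinv : ∀ σ, (S.ev χ ((z.side y c).g σ))⁻¹ ≤ bound P ∧
      (S.ev χ (((z.bump d).side y c).g σ))⁻¹ ≤ bound P := fun σ => by
    have a1 := (St.xi_ge hB h.toCore hy hyE hP.tau_pos (h.K_lo c σ) hl).2
    have a2 := (St.xi_ge hB h'.toCore hy hyE ht2 (h'.K_lo c σ) (χ := χ) (c := c) hl).2
    have a3 : S.ev χ (S.E ((z.bump d).B c σ)) ≤ 1 / 100 := h.live_B c σ χ hl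
    have a4 := h.live_B c σ χ hl
    have a5 := (h'.live_a c χ hl).2
    have := div_nonneg zero_le_two hP.tau_pos.le
    rw [bound]
    constructor <;> linarith
  have hxi : ∀ σ,
      let X := t - ((S.ev χ (((z.bump d).side y c).g σ))⁻¹ - (S.ev χ ((z.side y c).g σ))⁻¹)
      let u := (S.ev χ ((z.side y c).g σ))⁻¹
      let w1 := S.ev χ (S.E (z.G y c σ * d c * z.G y c σ))
      let w2 := S.ev χ (S.E (z.G y c σ * d c * z.G y c σ * d c * z.G y c σ))
      |X| ≤ 40 * bound P ^ 16 * n ∧ |X - (t - u * u * w1)| ≤ 38 * bound P ^ 16 * n ^ 2 ∧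
        |X - (t - u * u * w1) - (u * u * w2 - u * u * u * (w1 * w1))| ≤
          36 * bound P ^ 16 * n ^ 3 := fun σ => by
    obtain ⟨hG, hG', hGs, nG, nG', e⟩ := resolvents hP hy h hd c σ
    obtain ⟨n1, n2, n3⟩ := words (zero_le_one.trans hM) nG nG' hn.ge
    set G := z.G y c σ
    set G' := (z.bump d).G y c σ
    have hdM := S.le _ hb
    have m1 : G * d c * G ∈ S.M := mul_mem (mul_mem hG hdM) hG
    have m2 : G * d c * G * d c * G ∈ S.M := mul_mem (mul_mem m1 hdM) hG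
    have m3 : G * d c * G * d c * G * d c * G' ∈ S.M := mul_mem (mul_mem m2 hdM) hG'
    refine num_xi (r3 := S.ev χ (S.E (G * d c * G * d c * G * d c * G'))) hM (norm_nonneg _) hn1 ht
      (St.ev_g hB h.toCore hy hP.tau_pos (h.K_lo c σ) χ).1 (hinv σ).1
      (St.ev_g hB h'.toCore hy ht2 (h'.K_lo c σ) χ).1 (hinv σ).2
      ((abs_ev_le (hB.E_mem _ m1)).trans ((hB.E_norm _ m1).trans n1))
      ((abs_ev_le (hB.E_mem _ m2)).trans ((hB.E_norm _ m2).trans n2))
      ((abs_ev_le (hB.E_mem _ m3)).trans ((hB.E_norm _ m3).trans n3)) ?_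
    show S.ev χ (S.E G') = S.ev χ (S.E G) - _ + _ - _
    have eE : S.E G' = S.E G - S.E (G * d c * G) + S.E (G * d c * G * d c * G) -
        S.E (G * d c * G * d c * G * d c * G') := by
      conv_lhs => rw [e]
      rw [E_sub hB (add_mem (sub_mem hG m1) m2) m3, hB.E_add _ (sub_mem hG m1) _ m2,
        E_sub hB hG m1]
    rw [eE, ev_sub (add_mem (sub_mem (hB.E_mem _ hG) (hB.E_mem _ m1)) (hB.E_mem _ m2))
      (hB.E_mem _ m3), ev_add (sub_mem (hB.E_mem _ hG) (hB.E_mem _ m1)) (hB.E_mem _ m2),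
      ev_sub (hB.E_mem _ hG) (hB.E_mem _ m1)]
  obtain ⟨p1, p2, p3⟩ := num_pot (norm_nonneg _) hn1 ht hA.1
  have hF : |S.ev χ (z.side y c).fz| ≤ 2 := by
    have h1 := (St.live_bounds hB h.toCore hy hyE hP.tau_pos (h.K_lo c) hl (by linarith [hA.1])).2.2
    have h2 := h.live_fz c χ hl
    have := hP.c0_pos
    exact abs_le.2 ⟨by linarith, by linarith⟩
  have hPot : |A⁻¹ + 204 * (A⁻¹ * A⁻¹)| ≤ 1 := by
    have h1 := St.live_bounds hB h.toCore hy hyE hP.tau_pos (h.K_lo c) hl (by linarith [hA.1])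
    rw [St.ev_pot h.toCore, kB, ← hAdef] at h1
    exact abs_le.2 ⟨by linarith [h1.1], by linarith [h1.2.1]⟩
  have e0 := num_prod hM (norm_nonneg _) hF hPot (P1 := -((1 + 2 * 204 * A⁻¹) * (A⁻¹ * A⁻¹) * t))
    (by rw [abs_neg]; exact p1) p2 p3 (hxi false) (hxi true)
  refine le_trans (le_of_eq (congrArg _ ?_)) e0
  have hgis : ∀ σ, IsSelfAdjoint ((z.side y c).gi σ) := fun σ =>
    inverse_isSelfAdjoint (E_isSelfAdjoint hB (h.toCore.G_mem hy c σ)
      (inverse_isSelfAdjoint (isSelfAdjoint_of_le (h.K_lo c σ))))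
  have hgi : ∀ σ, (z.side y c).gi σ ∈ S.A := fun σ =>
    S.inverse_mem_A (hB.E_mem _ (h.toCore.G_mem hy c σ))
  have hfzs : IsSelfAdjoint (z.side y c).fz :=
    ((IsSelfAdjoint.one _).sub ((h.a_sa c).sub (hgis false))).sub ((h.a_sa c).sub (hgis true))
  obtain ⟨ef, eq⟩ := ev_first_quad hB (z.side y c) χ (h.live_mem c)
    (h.live_proj c).isSelfAdjoint (fun σ => (resolvents hP hy h hd c σ).1)
    (fun σ => (resolvents hP hy h hd c σ).2.2.1) hgi hgis (St.p_mem h.toCore) (St.p_sa h.toCore)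
    (St.pot_mem h.toCore) (St.pot_sa h.toCore) (St.fz_mem hB h.toCore hy) hfzs hb hbs
  have g1 : ∀ σ, S.ev χ ((z.side y c).gi σ) = (S.ev χ ((z.side y c).g σ))⁻¹ := fun σ =>
    St.ev_gi hB h.toCore hy hP.tau_pos (h.K_lo c σ)
  rw [ef, eq, g1, g1, show S.ev χ (z.side y c).e = 1 from hl, St.ev_pot h.toCore,
    St.ev_pot h'.toCore, St.ev_p h.toCore, St.ev_fz hB h.toCore hy, St.ev_fz hB h'.toCore hy,
    St.ev_xi hB h.toCore hy hP.tau_pos (h.K_lo c false),
    St.ev_xi hB h.toCore hy hP.tau_pos (h.K_lo c true),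
    St.ev_xi hB h'.toCore hy ht2 (h'.K_lo c false),
    St.ev_xi hB h'.toCore hy ht2 (h'.K_lo c true), kB, hA', ← hAdef, ← htdef]
  show _ = _
  simp only [St.side]
  ring

theorem trace (hP : P.Ok) (hy : y ∈ S.M) (h : z.Strict P y)
    (hd : ∀ c, d c ∈ S.A ∧ IsSelfAdjoint (d c) ∧ z.live c * d c = d c ∧ ‖d c‖ ≤ P.tau / 2)
    (c : Fin P.r) (σ : Bool) :
    |S.tr (z.sup c * (z.bump d).G y c σ) - S.tr (z.sup c * z.G y c σ) +
        S.tr (z.sup c * (z.G y c σ * d c * z.G y c σ)) -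
        S.tr (z.sup c * (z.G y c σ * d c * z.G y c σ * d c * z.G y c σ))| ≤
      bound P ^ 4 * ‖d c‖ ^ 3 := by
  obtain ⟨-, -, -, nG, nG', e⟩ := resolvents hP hy h hd c σ
  have n3 := (words (zero_le_one.trans (one_le_bound hP)) nG nG' (le_refl ‖d c‖)).2.2
  set G := z.G y c σ
  set G' := (z.bump d).G y c σ
  set X := G * d c * G * d c * G * d c * G'
  have e' : G' - G + G * d c * G - G * d c * G * d c * G = -X := by
    conv_lhs => rw [e]
    abel
  rw [show S.tr (z.sup c * G') - S.tr (z.sup c * G) + S.tr (z.sup c * (G * d c * G)) -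
      S.tr (z.sup c * (G * d c * G * d c * G)) = S.tr (z.sup c * -X) by
    rw [← e', mul_sub, mul_add, mul_sub, S.tr_sub, S.tr_add, S.tr_sub]]
  refine (S.abs_tr_le _).trans ((norm_mul_le _ _).trans ?_)
  rw [norm_neg]
  calc ‖z.sup c‖ * ‖X‖ ≤ 1 * ‖X‖ :=
        mul_le_mul_of_nonneg_right (h.toCore.sup_proj c).norm_le (norm_nonneg _)
    _ ≤ _ := by rw [one_mul]; exact n3

end Expand

open Expand in
/-- Part Expand. -/
theorem expand : ExpandStatement.{u} := by
  intro P hP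
  have hM := one_le_bound (P := P) hP
  refine ⟨232 * bound P ^ 16, by positivity, ?_⟩
  intro H _ _ _ S y z d hB hy hys hyE h hd
  refine ⟨bump_loose hP h hd, fun c χ hl => point hB hP hy hyE h hd c χ hl, fun c σ => ?_⟩
  refine (trace hP hy h hd c σ).trans (mul_le_mul_of_nonneg_right ?_ (by positivity))
  have h1 : bound P ^ 4 ≤ bound P ^ 16 := pow_le_pow_right₀ hM (by norm_num)
  have : 0 ≤ bound P ^ 16 := by positivity
  linarith

end Vale.Agent.P078.Tr.Iter
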