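import Vale.Agent.P078.Tr.Iter.Step.Var

/-!
# Step: linearity, sign averages and clipping
-/

open scoped ComplexOrder InnerProductSpace

noncomputable section

namespace Vale.Agent.P078.Tr.Iter

universe u

variable {H : Type u} [NormedAddCommGroup H] [InnerProductSpace ℂ H] [CompleteSpace H]
  {S : Tracial H}

open Tracial

/-- A signed sum. -/
def comb {n : ℕ} (s : Fin n → Bool) (b : Fin n → Op H) : Op H := ∑ j, sg (s j) • b j

omit [CompleteSpace H] in
lemma avg_mul {n : ℕ} (x w : Fin n → Op H) :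
    ∑ s : Fin n → Bool, comb s x * comb s w = (2 : ℝ) ^ n • ∑ j, x j * w j := by
  rw [← sum_bilin fun j k => x j * w k]
  refine Finset.sum_congr rfl fun s _ => ?_
  rw [comb, comb, Finset.sum_mul_sum]
  simp only [smul_mul_smul_comm]

omit [CompleteSpace H] in
lemma comb_not {n : ℕ} (s : Fin n → Bool) (b : Fin n → Op H) :
    comb (fun j => !s j) b = -comb s b := by
  simp [comb, sg_not, Finset.sum_neg_distrib]

lemma comb_asa {n : ℕ} (s : Fin n → Bool) {b : Fin n → Op H} (hb : ∀ j, Asa S (b j)) :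
    Asa S (comb s b) :=
  Asa.sum fun j _ => (hb j).smul _

omit [CompleteSpace H] in
lemma mul_comb {n : ℕ} (a : Op H) (s : Fin n → Bool) (b : Fin n → Op H) :
    a * comb s b = comb s fun j => a * b j := by
  simp [comb, Finset.mul_sum]

omit [CompleteSpace H] in
lemma conj_comb {n : ℕ} (a a' : Op H) (s : Fin n → Bool) (b : Fin n → Op H) :
    a * comb s b * a' = comb s fun j => a * b j * a' := by
  simp [comb, Finset.mul_sum, Finset.sum_mul]

lemma E_comb (hB : Basics S) {n : ℕ} (s : Fin n → Bool) {b : Fin n → Op H}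
    (hb : ∀ j, b j ∈ S.M) : S.E (comb s b) = comb s fun j => S.E (b j) := by
  rw [comb, E_sum hB _ _ fun j _ => S.rsmul_mem_M _ (hb j)]
  exact Finset.sum_congr rfl fun j _ => E_rsmul hB _ (hb j)

variable {P : Par} {y : Op H} {z : St S P.r} {c : Fin P.r} {σ : Bool} {χ : S.Chi}

section linear

variable (hB : Basics S) (hy : y ∈ S.M) (h : z.Core P)

include hB hy h

lemma W_add {a b : Op H} (ha : a ∈ S.M) (hb : b ∈ S.M) :
    S.E (z.G y c σ * (a + b) * z.G y c σ) =
      S.E (z.G y c σ * a * z.G y c σ) + S.E (z.G y c σ * b * z.G y c σ) := by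
  have hG := h.G_mem hy c σ
  rw [mul_add, add_mul, hB.E_add _ (mul_mem (mul_mem hG ha) hG) _ (mul_mem (mul_mem hG hb) hG)]

lemma W_smul (t : ℝ) {a : Op H} (ha : a ∈ S.M) :
    S.E (z.G y c σ * (t • a) * z.G y c σ) = t • S.E (z.G y c σ * a * z.G y c σ) := by
  have hG := h.G_mem hy c σ
  rw [mul_smul_comm, smul_mul_assoc, E_rsmul hB _ (mul_mem (mul_mem hG ha) hG)]

lemma W2_smul (t : ℝ) {a : Op H} (ha : a ∈ S.M) :
    S.E (z.G y c σ * (t • a) * z.G y c σ * (t • a) * z.G y c σ) =
      (t * t) • S.E (z.G y c σ * a * z.G y c σ * a * z.G y c σ) := by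
  have hG := h.G_mem hy c σ
  simp only [mul_smul_comm, smul_mul_assoc, smul_smul]
  rw [E_rsmul hB _ (mul_mem (mul_mem (mul_mem (mul_mem hG ha) hG) ha) hG)]

lemma L_add {a b : Op H} (ha : a ∈ S.M) (hb : b ∈ S.M) :
    (z.side y c).L σ (a + b) = (z.side y c).L σ a + (z.side y c).L σ b := by
  simp only [Side.L, St.side]
  rw [W_add hB hy h ha hb, mul_add]
  abel

lemma L_smul (t : ℝ) {a : Op H} (ha : a ∈ S.M) :
    (z.side y c).L σ (t • a) = t • (z.side y c).L σ a := by
  simp only [Side.L, St.side]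
  rw [W_smul hB hy h t ha, mul_smul_comm, smul_sub]

lemma first_add {a b : Op H} (ha : a ∈ S.M) (hb : b ∈ S.M) :
    (z.side y c).first (a + b) = (z.side y c).first a + (z.side y c).first b := by
  simp only [Side.first, L_add hB hy h ha hb, mul_add, neg_add_rev, mul_sub]
  abel

lemma first_smul (t : ℝ) {a : Op H} (ha : a ∈ S.M) :
    (z.side y c).first (t • a) = t • (z.side y c).first a := by
  simp only [Side.first, L_smul hB hy h t ha, mul_smul_comm, ← smul_add, ← smul_neg, ← smul_sub]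

lemma first_comb {n : ℕ} (s : Fin n → Bool) {b : Fin n → Op H} (hb : ∀ j, b j ∈ S.M) :
    (z.side y c).first (comb s b) = comb s fun j => (z.side y c).first (b j) := by
  classical
  simp only [comb]
  induction (Finset.univ : Finset (Fin n)) using Finset.induction_on with
  | empty =>
    simp only [Finset.sum_empty]
    simp [Side.first, Side.L, E_zero hB]
  | insert j t hj ih =>
    rw [Finset.sum_insert hj, Finset.sum_insert hj, first_add hB hy h (S.rsmul_mem_M _ (hb j))
      (sum_mem fun i _ => S.rsmul_mem_M _ (hb i)), first_smul hB hy h _ (hb j), ih]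

lemma quad_smul (t : ℝ) {a : Op H} (ha : a ∈ S.M) :
    (z.side y c).quad (t • a) = (t * t) • (z.side y c).quad a := by
  have hQ : ∀ σ, (z.side y c).xiQuad σ (t • a) = (t * t) • (z.side y c).xiQuad σ a := fun σ => by
    simp only [Side.xiQuad, St.side]
    rw [W2_smul hB hy h t ha, W_smul hB hy h t ha]
    simp only [mul_smul_comm, smul_mul_assoc, smul_smul, smul_sub]
  simp only [Side.quad, L_smul hB hy h t ha, hQ, ← smul_add, mul_smul_comm, smul_mul_assoc,
    smul_smul, ← smul_sub]

/-- The quadratic part averages to its diagonal. -/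
lemma sum_quad {n : ℕ} {b : Fin n → Op H} (hb : ∀ j, b j ∈ S.M) :
    ∑ s : Fin n → Bool, (z.side y c).quad (comb s b) =
      (2 : ℝ) ^ n • ∑ j, (z.side y c).quad (b j) := by
  have hG := fun σ => h.G_mem hy c σ
  have e1 : ∀ σ, ∑ s : Fin n → Bool, (z.side y c).xiQuad σ (comb s b) =
      (2 : ℝ) ^ n • ∑ j, (z.side y c).xiQuad σ (b j) := fun σ => by
    have hcm : ∀ s : Fin n → Bool, comb s b ∈ S.M := fun s =>
      sum_mem fun j _ => S.rsmul_mem_M _ (hb j)
    have q : ∑ s : Fin n → Bool,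
        S.E (z.G y c σ * comb s b * z.G y c σ * comb s b * z.G y c σ) =
        (2 : ℝ) ^ n • ∑ j, S.E (z.G y c σ * b j * z.G y c σ * b j * z.G y c σ) := by
      rw [← E_sum hB _ _ fun s _ => mul_mem (mul_mem (mul_mem (mul_mem (hG σ) (hcm s)) (hG σ))
        (hcm s)) (hG σ)]
      have e : ∀ s : Fin n → Bool, z.G y c σ * comb s b * z.G y c σ * comb s b * z.G y c σ =
          comb s (fun j => z.G y c σ * b j * z.G y c σ) * comb s (fun j => b j * z.G y c σ) := by
        intro s
        rw [← conj_comb, ← (show (1 : Op H) * comb s b * z.G y c σ =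
          comb s fun j => b j * z.G y c σ by rw [conj_comb]; simp), one_mul]
        noncomm_ring
      simp only [e]
      rw [avg_mul, E_rsmul hB _ (sum_mem fun j _ =>
        mul_mem (mul_mem (mul_mem (hG σ) (hb j)) (hG σ)) (mul_mem (hb j) (hG σ))),
        E_sum hB _ _ fun j _ => mul_mem (mul_mem (mul_mem (hG σ) (hb j)) (hG σ))
          (mul_mem (hb j) (hG σ))]
      simp only [mul_assoc]
    have w : ∑ s : Fin n → Bool,
        S.E (z.G y c σ * comb s b * z.G y c σ) * S.E (z.G y c σ * comb s b * z.G y c σ) =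
        (2 : ℝ) ^ n • ∑ j,
          S.E (z.G y c σ * b j * z.G y c σ) * S.E (z.G y c σ * b j * z.G y c σ) := by
      simp only [conj_comb, E_comb hB _ fun j => mul_mem (mul_mem (hG σ) (hb j)) (hG σ)]
      rw [avg_mul]
    simp only [Side.xiQuad, St.side]
    rw [Finset.sum_sub_distrib, ← Finset.mul_sum, ← Finset.mul_sum, q, w]
    simp only [mul_smul_comm, Finset.mul_sum, Finset.sum_sub_distrib, smul_sub]
  have e2 : ∀ σ, ∑ s : Fin n → Bool, comb s b * (z.side y c).L σ (comb s b) =
      (2 : ℝ) ^ n • ∑ j, b j * (z.side y c).L σ (b j) := fun σ => by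
    have e : ∀ s : Fin n → Bool,
        (z.side y c).L σ (comb s b) = comb s fun j => (z.side y c).L σ (b j) := fun s => by
      simp only [Side.L, St.side, conj_comb,
        E_comb hB _ fun j => mul_mem (mul_mem (hG σ) (hb j)) (hG σ)]
      simp only [comb, Finset.mul_sum, mul_smul_comm, smul_sub, Finset.sum_sub_distrib]
    simp only [e, avg_mul]
  simp only [Side.quad]
  simp only [← Finset.mul_sum, Finset.sum_add_distrib, Finset.sum_sub_distrib, mul_add (comb _ b),
    mul_add (b _), e1, e2, avg_mul, mul_smul_comm, ← smul_add, ← smul_sub]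

end linear

/-- Truncation at height `1 / t`. -/
def clipFun (t : ℝ) : C(ℝ, ℝ) := ⟨fun x => max (-(1 / t)) (min (1 / t) x), by fun_prop⟩

variable (S) in
/-- The truncation of an element of `A`. -/
def clipA (t : ℝ) (x : Op H) : Op H := appA S (clipFun t) x

lemma clipA_asa (t : ℝ) (x : Op H) : Asa S (clipA S t x) :=
  ⟨fnA_mem _, fnA_isSelfAdjoint _⟩

lemma ev_clipA (t : ℝ) (x : Op H) :
    S.ev χ (clipA S t x) = max (-(1 / t)) (min (1 / t) (S.ev χ x)) := ev_appA _ _ _

lemma clip_bounds {t : ℝ} (ht : 0 < t) (x : ℝ) :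
    |max (-(1 / t)) (min (1 / t) x)| ≤ 1 / t ∧
      (x - max (-(1 / t)) (min (1 / t) x)) ^ 2 ≤ t ^ 2 * x ^ 4 := by
  have h0 : (0 : ℝ) < 1 / t := one_div_pos.2 ht
  refine ⟨abs_le.2 ⟨le_max_left _ _, max_le (by linarith) (min_le_left _ _)⟩, ?_⟩
  have key : ∀ {v : ℝ}, 1 / t ≤ v → (v - 1 / t) ^ 2 ≤ t ^ 2 * v ^ 4 := fun {v} hv => by
    have h1 : 1 ≤ (t * v) ^ 2 := by
      have : 1 ≤ t * v := by
        rw [div_le_iff₀ ht] at hv; linarith
      nlinarith
    calc (v - 1 / t) ^ 2 ≤ v ^ 2 := pow_le_pow_left₀ (by linarith) (by linarith) 2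
      _ ≤ v ^ 2 * (t * v) ^ 2 := le_mul_of_one_le_right (sq_nonneg v) h1
      _ = _ := by ring
  rcases le_total x (1 / t) with h1 | h1
  · rcases le_total (-(1 / t)) x with h2 | h2
    · rw [min_eq_right h1, max_eq_right h2, sub_self, zero_pow two_ne_zero]
      positivity
    · rw [min_eq_right h1, max_eq_left h2]
      have := key (v := -x) (by linarith)
      calc (x - -(1 / t)) ^ 2 = (-x - 1 / t) ^ 2 := by ring
        _ ≤ t ^ 2 * (-x) ^ 4 := this
        _ = _ := by ring
  · rw [min_eq_left h1, max_eq_right (by linarith)]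
    exact key h1

lemma clipA_neg (t : ℝ) {x : Op H} (hx : x ∈ S.A) (ht : 0 < t) :
    clipA S t (-x) = -clipA S t x := by
  have hc := clipA_asa (S := S) t x
  refine (ext_iff_ev (clipA_asa t (-x)).1 hc.neg.1 (clipA_asa t (-x)).2 hc.neg.2).2 fun χ => ?_
  rw [ev_clipA, Tracial.ev_neg hc.1, ev_clipA, Tracial.ev_neg hx]
  have h0 : (0 : ℝ) < 1 / t := one_div_pos.2 ht
  set v := S.ev χ x
  rcases le_total v (1 / t) with h1 | h1
  · rcases le_total (-(1 / t)) v with h2 | h2
    · rw [min_eq_right h1, max_eq_right h2, min_eq_right (show -v ≤ 1 / t by linarith),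
        max_eq_right (show -(1 / t) ≤ -v by linarith)]
    · rw [min_eq_right h1, max_eq_left h2, min_eq_left (show 1 / t ≤ -v by linarith),
        max_eq_right (show -(1 / t) ≤ 1 / t by linarith), neg_neg]
  · rw [min_eq_left h1, max_eq_right (show -(1 / t) ≤ 1 / t by linarith),
      min_eq_right (show -v ≤ 1 / t by linarith), max_eq_left (show -v ≤ -(1 / t) by linarith)]

end Vale.Agent.P078.Tr.Iter
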