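import Vale.Agent.P078.Tr.Iter.Facts

/-!
# Step: bounds for sandwiches in the trace and in the operator order
-/

open scoped ComplexOrder InnerProductSpace

noncomputable section

namespace Vale.Agent.P078.Tr.Iter

universe u

variable {H : Type u} [NormedAddCommGroup H] [InnerProductSpace ℂ H] [CompleteSpace H]
  {S : Tracial H}

open Tracial

lemma le_smul_one {x : Op H} (hx : IsSelfAdjoint x) {C : ℝ} (h : ‖x‖ ≤ C) :
    x ≤ C • (1 : Op H) := by
  refine (IsSelfAdjoint.le_algebraMap_norm_self hx).trans ?_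
  rw [Algebra.algebraMap_eq_smul_one]
  exact smul_le_smul_of_nonneg_right h zero_le_one

lemma norm_le_of_ev {x : Op H} (hx : x ∈ S.A) (hs : IsSelfAdjoint x) {C : ℝ} (hC : 0 ≤ C)
    (h : ∀ χ : S.Chi, |S.ev χ x| ≤ C) : ‖x‖ ≤ C := by
  have h1 : star x * x ≤ (C ^ 2) • (1 : Op H) := by
    refine (le_iff (mul_mem (star_mem hx) hx) (smul_real_mem _ (one_mem _))
      (IsSelfAdjoint.star_mul_self x) (isSelfAdjoint_smul_one _)).2 fun χ => ?_
    rw [hs.star_eq, ev_mul hx hx hs, ev_smul _ (one_mem _), ev_one, mul_one, ← sq, sq_le_sq,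
      abs_of_nonneg hC]
    exact h χ
  have h2 := CStarAlgebra.norm_le_norm_of_nonneg_of_le (star_mul_self_nonneg x) h1
  rw [CStarRing.norm_star_mul_self] at h2
  have h3 : ‖(C ^ 2) • (1 : Op H)‖ ≤ C ^ 2 := by
    rw [norm_smul, Real.norm_of_nonneg (sq_nonneg C)]
    exact mul_le_of_le_one_right (sq_nonneg C) ContinuousLinearMap.norm_id_le
  nlinarith [norm_nonneg x]

lemma tr_mul_nonneg {X Y : Op H} (hX : X ∈ S.M) (hY : Y ∈ S.M) (hX0 : 0 ≤ X) (hY0 : 0 ≤ Y) :
    0 ≤ S.tr (X * Y) := by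
  have hs := S.sqrt_mem_M hX
  have e : S.tr (X * Y) = S.tr (CFC.sqrt X * Y * CFC.sqrt X) := by
    conv_lhs => rw [← CFC.sqrt_mul_sqrt_self X hX0, mul_assoc]
    exact S.tr_comm hs (mul_mem hs hY)
  rw [e]
  refine S.tr_nonneg ?_
  have := star_left_conjugate_nonneg hY0 (CFC.sqrt X)
  rwa [(CFC.sqrt_nonneg X).isSelfAdjoint.star_eq] at this

lemma tr_mul_mono {X Y Z : Op H} (hX : X ∈ S.M) (hY : Y ∈ S.M) (hZ : Z ∈ S.M) (hX0 : 0 ≤ X)
    (h : Y ≤ Z) : S.tr (X * Y) ≤ S.tr (X * Z) := by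
  have := tr_mul_nonneg hX (sub_mem hZ hY) hX0 (sub_nonneg.2 h)
  rw [mul_sub, S.tr_sub] at this
  linarith

lemma tr_mul_le {X Y : Op H} (hX : X ∈ S.M) (hY : Y ∈ S.M) (hX0 : 0 ≤ X) (hY0 : 0 ≤ Y) {C : ℝ}
    (hC : ‖X‖ ≤ C) : S.tr (X * Y) ≤ C * S.tr Y := by
  have := tr_mul_mono hY hX (S.rsmul_mem_M C (one_mem _)) hY0
    (le_smul_one (IsSelfAdjoint.of_nonneg hX0) hC)
  rw [mul_smul_comm, mul_one, S.tr_smul, S.tr_comm hY hX] at this
  exact this

/-- The square of the expectation is at most the expectation of the square. -/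
lemma E_sq_le (hB : Basics S) {x : Op H} (hx : x ∈ S.M) (hs : IsSelfAdjoint x) :
    S.E x * S.E x ≤ S.E (x * x) := by
  have hm := hB.E_mem x hx
  have hmM := S.le _ hm
  have hd : x - S.E x ∈ S.M := sub_mem hx hmM
  have h0 := hB.E_nonneg _ (mul_mem hd hd)
    ((hs.sub (E_isSelfAdjoint hB hx hs)).mul_self_nonneg)
  have e : (x - S.E x) * (x - S.E x) = x * x - x * S.E x - S.E x * x + S.E x * S.E x := by
    noncomm_ring
  have m1 := mul_mem hx hmM
  have m2 := mul_mem hmM hx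
  rw [e, hB.E_add _ (sub_mem (sub_mem (mul_mem hx hx) m1) m2) _ (mul_mem hmM hmM),
    E_sub hB (sub_mem (mul_mem hx hx) m1) m2, E_sub hB (mul_mem hx hx) m1,
    (hB.E_mul _ hm x hx).2, (hB.E_mul _ hm x hx).1, hB.E_self _ (mul_mem hm hm),
    sub_add_cancel, sub_nonneg] at h0
  exact h0

section sandwich

variable {G u : Op H} {γ : ℝ}

lemma sandwich_nonneg (hG : 0 ≤ G) (hu : IsSelfAdjoint u) : 0 ≤ u * G * u := by
  have := star_left_conjugate_nonneg hG u
  rwa [hu.star_eq] at this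

lemma sandwich_le (hG : 0 ≤ G) (hγ : ‖G‖ ≤ γ) (hu : IsSelfAdjoint u) :
    u * G * u ≤ γ • (u * u) := by
  have := star_left_conjugate_le_conjugate (le_smul_one (IsSelfAdjoint.of_nonneg hG) hγ) u
  rwa [hu.star_eq, mul_smul_comm, mul_one, smul_mul_assoc] at this

/-- Two sandwiches differ by little if their arguments do. -/
lemma sandwich_diff_le {e u : Op H} (hG : 0 ≤ G) (he : IsSelfAdjoint e) (hu : IsSelfAdjoint u)
    {s : ℝ} (hs : 0 < s) :
    e * G * e - u * G * u ≤ s • (e * G * e) + (1 + s⁻¹) • ((e - u) * G * (e - u)) ∧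
      u * G * u - e * G * e ≤ s • (e * G * e) + (1 + s⁻¹) • ((e - u) * G * (e - u)) := by
  set v := e - u with hv
  have hvs : IsSelfAdjoint v := he.sub hu
  have e1 : e * G * e - u * G * u = e * G * v + v * G * e - v * G * v := by
    rw [show u = e - v by rw [hv]; abel]; noncomm_ring
  have hp : ∀ k : ℝ, k * k = 1 →
      0 ≤ s • (e * G * e) + s⁻¹ • (v * G * v) - k • (e * G * v + v * G * e) := by
    intro k hk
    have h1 := sandwich_nonneg hG (((IsSelfAdjoint.all s).smul he).sub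
      ((IsSelfAdjoint.all k).smul hvs))
    have h2 := smul_nonneg (inv_nonneg.2 hs.le) h1
    refine h2.trans (le_of_eq ?_)
    simp only [sub_mul, mul_sub, smul_mul_assoc, mul_smul_comm, smul_sub, smul_smul, smul_add]
    rw [hk, show s⁻¹ * (s * s) = s by field_simp, show s⁻¹ * (s * k) = k by field_simp,
      show s⁻¹ * (k * s) = k by field_simp]
    simp only [mul_one]
    abel
  have hv0 := sandwich_nonneg hG hvs
  constructor
  · rw [e1, ← sub_nonneg]
    have := add_nonneg (hp 1 (one_mul 1)) (add_nonneg hv0 hv0)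
    refine this.trans (le_of_eq ?_)
    rw [add_smul, one_smul, one_smul]
    abel
  · rw [← neg_sub, e1, ← sub_nonneg]
    have := hp (-1) (by norm_num)
    refine this.trans (le_of_eq ?_)
    rw [add_smul, one_smul, neg_one_smul]
    abel

variable (hB : Basics S) (hG : G ∈ S.M) (hG0 : 0 ≤ G) (hγ : ‖G‖ ≤ γ) (hu : u ∈ S.M)
  (hus : IsSelfAdjoint u)

include hG hG0 hγ hu hus

lemma tr_sandwich_le {X : Op H} (hX : X ∈ S.M) (hX0 : 0 ≤ X) {κ : ℝ} (hκ : ‖X‖ ≤ κ) :
    S.tr (X * (u * G * u)) ≤ κ * γ * S.tr (u * u) := by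
  have hγ0 : 0 ≤ γ := (norm_nonneg G).trans hγ
  have hκ0 : 0 ≤ κ := (norm_nonneg X).trans hκ
  refine (tr_mul_le hX (mul_mem (mul_mem hu hG) hu) hX0 (sandwich_nonneg hG0 hus) hκ).trans ?_
  rw [mul_assoc κ]
  refine mul_le_mul_of_nonneg_left ?_ hκ0
  have := S.tr_mono (sandwich_le hG0 hγ hus)
  rwa [S.tr_smul] at this

include hB

lemma tr_E_GuGuG_le : S.tr (S.E (G * u * G * u * G)) ≤ γ ^ 3 * S.tr (u * u) := by
  have hγ0 : 0 ≤ γ := (norm_nonneg G).trans hγ
  rw [tr_E_eq hB (mul_mem (mul_mem (mul_mem (mul_mem hG hu) hG) hu) hG)]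
  have e : S.tr (G * u * G * u * G) = S.tr (G * G * (u * G * u)) := by
    have : G * u * G * u * G = G * (u * G * u) * G := by noncomm_ring
    rw [this, S.tr_comm (mul_mem hG (mul_mem (mul_mem hu hG) hu)) hG, ← mul_assoc G G]
  rw [e]
  refine (tr_sandwich_le hG hG0 hγ hu hus (mul_mem hG hG)
    ((IsSelfAdjoint.of_nonneg hG0).mul_self_nonneg) (κ := γ * γ) ?_).trans (le_of_eq (by ring))
  exact (norm_mul_le G G).trans (mul_le_mul hγ hγ (norm_nonneg _) hγ0)

lemma tr_W_sq_le : S.tr (S.E (G * u * G) * S.E (G * u * G)) ≤ γ ^ 4 * S.tr (u * u) := by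
  have hγ0 : 0 ≤ γ := (norm_nonneg G).trans hγ
  have hm := mul_mem (mul_mem hG hu) hG
  have hGs := IsSelfAdjoint.of_nonneg hG0
  have hz : IsSelfAdjoint (G * u * G) := by
    rw [IsSelfAdjoint, star_mul, star_mul, hus.star_eq, hGs.star_eq, mul_assoc]
  refine (S.tr_mono (E_sq_le hB hm hz)).trans ?_
  rw [tr_E_eq hB (mul_mem hm hm)]
  have hGG : G * G ∈ S.M := mul_mem hG hG
  have hGG0 : (0 : Op H) ≤ G * G := hGs.mul_self_nonneg
  have hGn : ‖G * G‖ ≤ γ * γ := (norm_mul_le G G).trans (mul_le_mul hγ hγ (norm_nonneg _) hγ0)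
  have e : S.tr (G * u * G * (G * u * G)) = S.tr (G * G * (u * (G * G) * u)) := by
    have : G * u * G * (G * u * G) = G * (u * (G * G) * u) * G := by noncomm_ring
    rw [this, S.tr_comm (mul_mem hG (mul_mem (mul_mem hu hGG) hu)) hG, ← mul_assoc G G]
  rw [e]
  exact (tr_sandwich_le hGG hGG0 hGn hu hus hGG hGG0 hGn).trans (le_of_eq (by ring))

end sandwich

end Vale.Agent.P078.Tr.Iter
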