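import Vale.Agent.P078.Tr.Iter.Step.Avg

/-!
# Step: the objective after a bump along one sign vector
-/

open scoped ComplexOrder InnerProductSpace

noncomputable section

namespace Vale.Agent.P078.Tr.Iter

universe u

variable {H : Type u} [NormedAddCommGroup H] [InnerProductSpace ℂ H] [CompleteSpace H]
  {S : Tracial H}

open Tracial

/-- A bound for the bump, divided by `t ^ 4`. -/
def Par.dMax (P : Par) : ℝ := 2 * P.lamMax ^ 2 * P.tau⁻¹

/-- The third order error at one colour, with `C` the constant of the expansion. -/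
def Par.err1 (P : Par) (C : ℝ) : ℝ := C * P.dMax ^ 3 + 3 * P.cQuad * P.cN * P.dMax ^ 2

/-- The second order size at one colour. -/
def Par.err2 (P : Par) : ℝ := P.cLin * P.dMax + 3 * P.cQuad * P.cN * P.dMax ^ 2

/-- The size of the change of the potential, divided by `t ^ 4`. -/
def Par.err3 (P : Par) (C : ℝ) : ℝ := P.r * (P.cLin * P.dMax + P.err2 + P.err1 C)

/-- The third order error of the objective, with `C` the constant of the expansion. -/
def Par.errObj (P : Par) (C : ℝ) : ℝ :=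
  (P.kap + P.lam2) * (P.r * P.err1 C) + 2 * P.kap ^ 2 * (P.r * (P.err2 + P.err1 C)) ^ 2 +
    P.lam1 * (2 * P.r * (C * P.dMax ^ 3 + 3 * P.tau⁻¹ ^ 3 * P.dMax ^ 2))

namespace Par

variable {P : Par} (hP : P.Ok) {C : ℝ}
include hP

lemma one_le_gam : 1 ≤ P.tau⁻¹ := one_le_inv_iff₀.2 ⟨hP.tau_pos, by linarith [hP.tau_le]⟩

lemma dMax_pos : 0 < P.dMax := by
  have := hP.tau_pos
  have := P.one_le_lamMax hP
  unfold Par.dMax; positivity

lemma err1_nonneg (hC : 0 ≤ C) : 0 ≤ P.err1 C := by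
  have := P.dMax_pos hP
  have := P.cQuad_nonneg hP
  have := P.cN_pos hP
  unfold Par.err1; positivity

lemma err2_nonneg : 0 ≤ P.err2 := by
  have := P.dMax_pos hP
  have := P.cQuad_nonneg hP
  have := P.cN_pos hP
  have := P.cLin_nonneg hP
  unfold Par.err2; positivity

end Par

/-- The scalar step for the exponential objective: `Δ = F' - F` is close to `t⁵ A + t¹⁰ Q`. -/
lemma exp_step {κ l t F F' A Q w a q e : ℝ} (hκ : 0 < κ) (hl : 0 < l) (ht : 0 < t) (ht1 : t ≤ 1)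
    (hF : 3 / 5 ≤ F) (hA : |A| ≤ a / t) (hQ : |Q| ≤ q / t ^ 2)
    (hR : |F' - F - t ^ 5 * A - t ^ 10 * Q| ≤ t ^ 12 * e) (hq : 0 ≤ q) (he : 0 ≤ e)
    (ht3 : κ * (t ^ 4 * (a + q + e)) ≤ 1) (hw : w = κ * Real.exp (-κ * (F - 3 / 5)) + l) :
    Real.exp (-κ * (F' - 3 / 5)) - Real.exp (-κ * (F - 3 / 5)) - l * (F' - F) ≤
      -(t ^ 5 * (w * A)) - t ^ 10 * (w * Q) + 2 * κ ^ 2 * t ^ 10 * A ^ 2 +
        ((κ + l) * e + 2 * κ ^ 2 * (q + e) ^ 2) * t ^ 12 := by
  subst hw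
  set Δ := F' - F with hΔ
  set φ := Real.exp (-κ * (F - 3 / 5)) with hφ
  have h5A : |t ^ 5 * A| ≤ t ^ 4 * a := by
    rw [abs_mul, abs_of_nonneg (pow_nonneg ht.le 5)]
    exact (mul_le_mul_of_nonneg_left hA (pow_nonneg ht.le 5)).trans (le_of_eq (by field_simp))
  have hrest : |Δ - t ^ 5 * A| ≤ t ^ 8 * (q + e) := by
    have j1 : |t ^ 10 * Q| ≤ t ^ 8 * q := by
      rw [abs_mul, abs_of_nonneg (pow_nonneg ht.le 10)]
      exact (mul_le_mul_of_nonneg_left hQ (pow_nonneg ht.le 10)).trans (le_of_eq (by field_simp))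
    have j2 := mul_le_mul_of_nonneg_right (pow_le_pow_of_le_one ht.le ht1
      (show 8 ≤ 12 by norm_num)) he
    have j3 := abs_le.1 hR
    have j4 := abs_le.1 j1
    exact abs_le.2 ⟨by linarith, by linarith⟩
  have hΔb : |-κ * Δ| ≤ 1 := by
    rw [abs_mul, abs_neg, abs_of_nonneg hκ.le]
    refine (mul_le_mul_of_nonneg_left ?_ hκ.le).trans ht3
    have j1 := mul_le_mul_of_nonneg_right (pow_le_pow_of_le_one ht.le ht1
      (show 4 ≤ 8 by norm_num)) (add_nonneg hq he)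
    have j2 := abs_le.1 hrest
    have j3 := abs_le.1 h5A
    exact abs_le.2 ⟨by linarith, by linarith⟩
  have hexp := (abs_le.1 (Real.abs_exp_sub_one_sub_id_le hΔb)).2
  have hφ0 : 0 ≤ φ := (Real.exp_pos _).le
  have hφ1 : φ ≤ 1 := Real.exp_le_one_iff.2 (by nlinarith)
  have eφ : Real.exp (-κ * (F' - 3 / 5)) = φ * Real.exp (-κ * Δ) := by
    rw [hφ, ← Real.exp_add, hΔ]
    congr 1
    ring
  rw [eφ]
  have k1 : φ * Real.exp (-κ * Δ) ≤ φ - φ * (κ * Δ) + κ ^ 2 * Δ ^ 2 := by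
    have k := mul_le_mul_of_nonneg_left hexp hφ0
    have k' : φ * (-κ * Δ) ^ 2 ≤ κ ^ 2 * Δ ^ 2 := by
      rw [show (-κ * Δ) ^ 2 = κ ^ 2 * Δ ^ 2 by ring]
      exact mul_le_of_le_one_left (by positivity) hφ1
    linarith
  have k2 : Δ ^ 2 ≤ 2 * t ^ 10 * A ^ 2 + 2 * t ^ 12 * (q + e) ^ 2 := by
    have j := pow_le_pow_left₀ (abs_nonneg _) hrest 2
    rw [sq_abs] at j
    have j' := mul_le_mul_of_nonneg_right (pow_le_pow_of_le_one ht.le ht1
      (show 12 ≤ 16 by norm_num)) (sq_nonneg (q + e))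
    nlinarith [sq_nonneg (t ^ 5 * A - (Δ - t ^ 5 * A))]
  have hw0 : 0 ≤ κ * φ + l := by linarith [mul_nonneg hκ.le hφ0]
  have k3 := mul_le_mul_of_nonneg_left (neg_le.1 (abs_le.1 hR).1) hw0
  have k3' := mul_le_mul_of_nonneg_right
    (show κ * φ + l ≤ κ + l by linarith [mul_le_mul_of_nonneg_left hφ1 hκ.le])
    (show 0 ≤ t ^ 12 * e by positivity)
  have k4 := mul_le_mul_of_nonneg_left k2 (sq_nonneg κ)
  linarith

lemma tr_le_of_ev {x w : Op H} (hx : Asa S x) (hw : Asa S w)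
    (h : ∀ χ : S.Chi, S.ev χ x ≤ S.ev χ w) : S.tr x ≤ S.tr w :=
  S.tr_mono ((le_iff hx.1 hw.1 hx.2 hw.2).2 h)

variable {P : Par} {y : Op H} {z : St S P.r}

/-- The bump along `u` with drift `m`. -/
def stepVec (z : St S P.r) (t : ℝ) (u m : Fin P.r → Op H) : Fin P.r → Op H :=
  fun c => t ^ 5 • (z.a c * u c) + t ^ 10 • m c

/-- The weight of the potential in the linearised objective. -/
def St.wt (z : St S P.r) (y : Op H) : Op H :=
  z.act * (P.kap • phi S P.kap (z.F y) + P.lam2 • (1 : Op H))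

/-- The first order part. -/
def St.lin (z : St S P.r) (y : Op H) (u : Fin P.r → Op H) : Op H :=
  ∑ c, (z.side y c).first (z.a c * u c)

/-- The second order part. -/
def St.snd (z : St S P.r) (y : Op H) (u m : Fin P.r → Op H) : Op H :=
  ∑ c, ((z.side y c).first (m c) + (z.side y c).quad (z.a c * u c))

lemma F_asa (hB : Basics S) {z₀ : St S P.r} (h : z₀.Core P) (hy : y ∈ S.M) {t₀ : ℝ}
    (ht₀ : 0 < t₀) (hK₀ : ∀ c σ, t₀ • (1 : Op H) ≤ z₀.K y c σ) : Asa S (z₀.F y) := by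
  have hgi : ∀ c σ, IsSelfAdjoint ((z₀.side y c).gi σ) := fun c σ =>
    inverse_isSelfAdjoint (E_isSelfAdjoint hB (h.G_mem hy c σ)
      (IsSelfAdjoint.of_nonneg (inverse_nonneg ht₀ (hK₀ c σ))))
  have hfz : ∀ c, Asa S (z₀.side y c).fz := fun c => ⟨St.fz_mem hB h hy,
    ((IsSelfAdjoint.one _).sub ((h.a_sa c).sub (hgi c false))).sub
      ((h.a_sa c).sub (hgi c true))⟩
  have hpot : ∀ c, Asa S (z₀.side y c).pot := fun c => ⟨St.pot_mem h, St.pot_sa h⟩
  have hlive : ∀ c, Asa S (z₀.live c) := fun c => ⟨h.live_mem c, (h.live_proj c).isSelfAdjoint⟩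
  exact (Asa.sum fun c _ => (hlive c).mul ((hpot c).mul (hfz c))).add ⟨h.loss_mem, h.loss_sa⟩

namespace St.Strict

variable (hB : Basics S) (hP : P.Ok) (hy : y ∈ S.M) (hyE : S.E y = 0) (hz : z.Strict P y)

include hB hy hz

omit hB hy hz in
lemma phi_asa {F : Op H} : Asa S (phi S P.kap F) := ⟨fnA_mem _, fnA_isSelfAdjoint _⟩

omit hB hy in
lemma wt_asa : Asa S (z.wt y) :=
  Asa.mul ⟨hz.act_mem, hz.act_proj.isSelfAdjoint⟩
    (((phi_asa).smul _).add (Asa.one.smul _))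

include hP

omit hB hy in
lemma wt_bounds (χ : S.Chi) :
    0 ≤ S.ev χ (z.wt y) ∧ S.ev χ (z.wt y) ≤ P.kap + P.lam2 ∧
      (S.ev χ z.act = 1 → P.lam2 ≤ S.ev χ (z.wt y)) := by
  have hp : Asa S (phi S P.kap (z.F y)) := phi_asa
  rw [St.wt, Asa.ev_mul ⟨hz.act_mem, hz.act_proj.isSelfAdjoint⟩ ((hp.smul _).add (Asa.one.smul _)),
    Asa.ev_add (hp.smul _) (Asa.one.smul _), ev_smul _ hp.1, ev_smul _ (one_mem _), ev_one, mul_one]
  rcases ev_proj (χ := χ) hz.act_mem hz.act_proj with e | e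
  · rw [e, zero_mul]
    exact ⟨le_rfl, by linarith [hP.kap_pos, hP.lam2_pos], fun h => absurd h zero_ne_one⟩
  · have hF := hz.act_F χ e
    have h1 : S.ev χ (phi S P.kap (z.F y)) = Real.exp (-P.kap * (S.ev χ (z.F y) - 3 / 5)) :=
      ev_appA _ _ _
    have h2 : S.ev χ (phi S P.kap (z.F y)) ≤ 1 := by
      rw [h1]
      exact Real.exp_le_one_iff.2 (by nlinarith [hP.kap_pos])
    have h3 : 0 ≤ S.ev χ (phi S P.kap (z.F y)) := by rw [h1]; positivity
    rw [e, one_mul]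
    have i1 := mul_le_mul_of_nonneg_left h2 hP.kap_pos.le
    have i2 := mul_nonneg hP.kap_pos.le h3
    exact ⟨by linarith [hP.lam2_pos], by linarith, fun _ => by linarith⟩

variable {t : ℝ} {u m : Fin P.r → Op H}

omit hB hy in
lemma stepVec_facts (ht : 0 < t) (ht1 : t ≤ 1)
    (hu : ∀ c, Asa S (u c) ∧ z.live c * u c = u c ∧ ∀ χ : S.Chi, |S.ev χ (u c)| ≤ 1 / t)
    (hm : ∀ c, Asa S (m c) ∧ z.live c * m c = m c ∧ ‖m c‖ ≤ P.lamMax ^ 2 * P.tau⁻¹)
    (c : Fin P.r) :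
    Asa S (z.a c * u c) ∧ ‖z.a c * u c‖ ≤ P.lamMax / t ∧
      Asa S (stepVec z t u m c) ∧ z.live c * stepVec z t u m c = stepVec z t u m c ∧
      ‖stepVec z t u m c‖ ≤ t ^ 4 * P.dMax := by
  have hau : Asa S (z.a c * u c) := Asa.mul ⟨hz.a_mem c, hz.a_sa c⟩ (hu c).1
  have hlam := P.one_le_lamMax hP
  have hn : ‖z.a c * u c‖ ≤ P.lamMax / t := by
    refine norm_le_of_ev hau.1 hau.2 (div_nonneg (by linarith) ht.le) fun χ => ?_
    rw [Asa.ev_mul ⟨hz.a_mem c, hz.a_sa c⟩ (hu c).1]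
    have he : S.ev χ (z.live c) * S.ev χ (u c) = S.ev χ (u c) := by
      rw [← Asa.ev_mul ⟨hz.live_mem c, (hz.live_proj c).isSelfAdjoint⟩ (hu c).1, (hu c).2.1]
    rcases hz.toCore.ev_live c χ with e | e
    · rw [e, zero_mul] at he
      rw [← he, mul_zero, abs_zero]
      exact div_nonneg (by linarith) ht.le
    · obtain ⟨h1, h2⟩ := hz.live_a c χ e
      rw [abs_mul, abs_of_nonneg (by linarith : (0 : ℝ) ≤ S.ev χ (z.a c)), div_eq_mul_one_div P.lamMax]
      exact mul_le_mul (by unfold Par.lamMax; linarith) ((hu c).2.2 χ) (abs_nonneg _) (by linarith)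
  refine ⟨hau, hn, (hau.smul _).add ((hm c).1.smul _), ?_, ?_⟩
  · rw [stepVec, mul_add, mul_smul_comm, mul_smul_comm, (hm c).2.1, ← mul_assoc,
      S.comm _ (hz.live_mem c) _ (hz.a_mem c), mul_assoc, (hu c).2.1]
  · refine (norm_add_le _ _).trans ?_
    rw [norm_smul, norm_smul, Real.norm_of_nonneg (pow_nonneg ht.le 5),
      Real.norm_of_nonneg (pow_nonneg ht.le 10)]
    have i1 : t ^ 5 * ‖z.a c * u c‖ ≤ t ^ 4 * P.lamMax := by
      refine (mul_le_mul_of_nonneg_left hn (pow_nonneg ht.le 5)).trans (le_of_eq ?_)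
      field_simp
    have i2 : t ^ 10 * ‖m c‖ ≤ t ^ 4 * (P.lamMax ^ 2 * P.tau⁻¹) :=
      mul_le_mul (pow_le_pow_of_le_one ht.le ht1 (by norm_num)) (hm c).2.2 (norm_nonneg _)
        (by positivity)
    have i3 : P.lamMax ≤ P.lamMax ^ 2 * P.tau⁻¹ := by
      have := P.one_le_gam hP
      calc P.lamMax = P.lamMax * 1 * 1 := by ring
        _ ≤ P.lamMax * P.lamMax * P.tau⁻¹ := by gcongr
        _ = _ := by ring
    rw [Par.dMax]
    have := mul_le_mul_of_nonneg_left i3 (pow_nonneg ht.le 4)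
    linarith

lemma lin_asa (hu : ∀ c, Asa S (u c)) : Asa S (z.lin y u) :=
  Asa.sum fun c _ => hz.first_asa hB hP hy (Asa.mul ⟨hz.a_mem c, hz.a_sa c⟩ (hu c))

lemma snd_asa (hu : ∀ c, Asa S (u c)) (hm : ∀ c, Asa S (m c)) : Asa S (z.snd y u m) :=
  Asa.sum fun c _ => (hz.first_asa hB hP hy (hm c)).add
    (hz.quad_asa hB hP hy (Asa.mul ⟨hz.a_mem c, hz.a_sa c⟩ (hu c)))

omit hB hy hz in
lemma dMax_le : P.lamMax ≤ P.dMax ∧ P.lamMax ^ 2 * P.tau⁻¹ ≤ P.dMax := by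
  have hlam := P.one_le_lamMax hP
  have hg := P.one_le_gam hP
  rw [Par.dMax]
  refine ⟨?_, by nlinarith [mul_nonneg (sq_nonneg P.lamMax) (zero_le_one.trans hg)]⟩
  calc P.lamMax = 1 * P.lamMax * 1 * 1 := by ring
    _ ≤ 2 * P.lamMax * P.lamMax * P.tau⁻¹ := by gcongr; norm_num
    _ = _ := by ring

omit hB hy hz hP in
lemma cross_le (ht : 0 < t) (ht1 : t ≤ 1) :
    (1 + (t ^ 6)⁻¹) * (t ^ 10 * P.dMax) ^ 2 + t ^ 6 * (t ^ 4 * P.dMax) ^ 2 ≤
      3 * P.dMax ^ 2 * t ^ 12 := by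
  have e : (1 + (t ^ 6)⁻¹) * (t ^ 10 * P.dMax) ^ 2 + t ^ 6 * (t ^ 4 * P.dMax) ^ 2 =
      P.dMax ^ 2 * (t ^ 20 + 2 * t ^ 14) := by field_simp; ring
  rw [e]
  have h1 := pow_le_pow_of_le_one ht.le ht1 (show 12 ≤ 20 by norm_num)
  have h2 := pow_le_pow_of_le_one ht.le ht1 (show 12 ≤ 14 by norm_num)
  nlinarith [sq_nonneg P.dMax]

include hyE

lemma col_le {C : ℝ} (hC : 0 ≤ C) (ht : 0 < t) (ht1 : t ≤ 1)
    (hu : ∀ c, Asa S (u c) ∧ z.live c * u c = u c ∧ ∀ χ : S.Chi, |S.ev χ (u c)| ≤ 1 / t)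
    (hm : ∀ c, Asa S (m c) ∧ z.live c * m c = m c ∧ ‖m c‖ ≤ P.lamMax ^ 2 * P.tau⁻¹)
    (hE : ∀ (c : Fin P.r) (χ : S.Chi), S.ev χ (z.live c) = 1 →
      |S.ev χ ((z.bump (stepVec z t u m)).side y c).pot *
            S.ev χ ((z.bump (stepVec z t u m)).side y c).fz -
          S.ev χ (z.side y c).pot * S.ev χ (z.side y c).fz -
          S.ev χ ((z.side y c).first (stepVec z t u m c)) -
          S.ev χ ((z.side y c).quad (stepVec z t u m c))| ≤ C * ‖stepVec z t u m c‖ ^ 3) (c : Fin P.r) (χ : S.Chi) (hc : S.ev χ (z.live c) = 1) :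
    |S.ev χ ((z.bump (stepVec z t u m)).side y c).pot *
          S.ev χ ((z.bump (stepVec z t u m)).side y c).fz -
        S.ev χ (z.side y c).pot * S.ev χ (z.side y c).fz -
        t ^ 5 * S.ev χ ((z.side y c).first (z.a c * u c)) -
        t ^ 10 * (S.ev χ ((z.side y c).first (m c)) +
          S.ev χ ((z.side y c).quad (z.a c * u c)))| ≤ t ^ 12 * P.err1 C := by
  obtain ⟨hau, -, hda, -, hdn4⟩ := hz.stepVec_facts hP ht ht1 hu hm c
  have hdn : ‖stepVec z t u m c‖ ^ 3 ≤ t ^ 12 * P.dMax ^ 3 :=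
    (pow_le_pow_left₀ (norm_nonneg _) hdn4 3).trans (le_of_eq (by ring))
  have hs6 : (0 : ℝ) < t ^ 6 := by positivity
  have hv : ‖t ^ 10 • m c‖ ≤ t ^ 10 * P.dMax := by
    rw [norm_smul, Real.norm_of_nonneg (pow_nonneg ht.le 10)]
    exact mul_le_mul_of_nonneg_left ((hm c).2.2.trans (dMax_le hP).2) (by positivity)
  have hdv : stepVec z t u m c - t ^ 5 • (z.a c * u c) = t ^ 10 • m c := by
    rw [stepVec, add_sub_cancel_left]
  have hCq := P.cQuad_nonneg hP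
  have hCN := P.cN_pos hP
  have i1 := (hE c χ hc).trans (mul_le_mul_of_nonneg_left hdn hC)
  have efirst : S.ev χ ((z.side y c).first (stepVec z t u m c)) =
      t ^ 5 * S.ev χ ((z.side y c).first (z.a c * u c)) +
        t ^ 10 * S.ev χ ((z.side y c).first (m c)) := by
    rw [stepVec, first_add hB hy hz.toCore (hau.smul _).memM ((hm c).1.smul _).memM,
      first_smul hB hy hz.toCore _ hau.memM, first_smul hB hy hz.toCore _ (hm c).1.memM,
      Asa.ev_add ((hz.first_asa hB hP hy hau).smul _) ((hz.first_asa hB hP hy (hm c).1).smul _),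
      ev_smul _ (hz.first_asa hB hP hy hau).1, ev_smul _ (hz.first_asa hB hP hy (hm c).1).1]
  have equad : S.ev χ ((z.side y c).quad (t ^ 5 • (z.a c * u c))) =
      t ^ 10 * S.ev χ ((z.side y c).quad (z.a c * u c)) := by
    rw [quad_smul hB hy hz.toCore _ hau.memM, ev_smul _ (hz.quad_asa hB hP hy hau).1]
    ring
  have i2 := hz.quad_diff (c := c) (χ := χ) hB hP hy hyE hda (hau.smul (t ^ 5)) hs6
  rw [hdv, equad] at i2
  have m1 := (hz.ev_maj_le (c := c) (χ := χ) hB hP hy hda).trans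
    (mul_le_mul_of_nonneg_left (pow_le_pow_left₀ (norm_nonneg _) hdn4 2) hCN.le)
  have m2 := (hz.ev_maj_le (c := c) (χ := χ) hB hP hy ((hm c).1.smul (t ^ 10))).trans
    (mul_le_mul_of_nonneg_left (pow_le_pow_left₀ (norm_nonneg _) hv 2) hCN.le)
  have i3 : |S.ev χ ((z.side y c).quad (stepVec z t u m c)) -
      t ^ 10 * S.ev χ ((z.side y c).quad (z.a c * u c))| ≤
      3 * P.cQuad * P.cN * P.dMax ^ 2 * t ^ 12 := by
    refine i2.trans ?_
    have h6 : 0 ≤ 1 + (t ^ 6)⁻¹ := by positivity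
    have k := mul_le_mul_of_nonneg_left (add_le_add (mul_le_mul_of_nonneg_left m1 hs6.le)
      (mul_le_mul_of_nonneg_left m2 h6)) hCq
    refine k.trans ?_
    have k2 := mul_le_mul_of_nonneg_left (cross_le (P := P) ht ht1) (mul_nonneg hCq hCN.le)
    linarith
  rw [efirst] at i1
  rw [Par.err1]
  have j1 := abs_le.1 i1
  have j3 := abs_le.1 i3
  exact abs_le.2 ⟨by linarith, by linarith⟩

lemma lin_snd_le (ht : 0 < t) (ht1 : t ≤ 1)
    (hu : ∀ c, Asa S (u c) ∧ z.live c * u c = u c ∧ ∀ χ : S.Chi, |S.ev χ (u c)| ≤ 1 / t)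
    (hm : ∀ c, Asa S (m c) ∧ z.live c * m c = m c ∧ ‖m c‖ ≤ P.lamMax ^ 2 * P.tau⁻¹)
    (χ : S.Chi) :
    |S.ev χ (z.lin y u)| ≤ P.r * P.cLin * P.dMax / t ∧
      |S.ev χ (z.snd y u m)| ≤ P.r * P.err2 / t ^ 2 := by
  have hf := fun c => hz.stepVec_facts hP ht ht1 hu hm c
  have hCQ := P.cQuad_nonneg hP
  have hCN := P.cN_pos hP
  have hCL := P.cLin_nonneg hP
  have hD := P.dMax_pos hP
  set A := S.ev χ (z.lin y u) with hA
  set Q := S.ev χ (z.snd y u m) with hQ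
  have eA : A = ∑ c, S.ev χ ((z.side y c).first (z.a c * u c)) := by
    rw [hA, St.lin, ev_sum _ _ fun c _ => (hz.first_asa hB hP hy (hf c).1).1]
  have eQ : Q = ∑ c, (S.ev χ ((z.side y c).first (m c)) +
      S.ev χ ((z.side y c).quad (z.a c * u c))) := by
    rw [hQ, St.snd, ev_sum _ _ fun c _ => ((hz.first_asa hB hP hy (hm c).1).add
      (hz.quad_asa hB hP hy (hf c).1)).1]
    exact Finset.sum_congr rfl fun c _ =>
      Asa.ev_add (hz.first_asa hB hP hy (hm c).1) (hz.quad_asa hB hP hy (hf c).1) χ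
  have hAb : |A| ≤ P.r * P.cLin * P.dMax / t := by
    rw [eA]
    refine (Finset.abs_sum_le_sum_abs _ _).trans ((Finset.sum_le_card_nsmul _ _
      (P.cLin * (P.dMax / t)) fun c _ => ?_).trans (le_of_eq ?_))
    · refine (hz.first_le hB hP hy hyE (hf c).1).trans (mul_le_mul_of_nonneg_left ?_ hCL)
      exact (hf c).2.1.trans (div_le_div_of_nonneg_right (dMax_le hP).1 ht.le)
    · rw [Finset.card_univ, Fintype.card_fin, nsmul_eq_mul]
      ring
  have hQb : |Q| ≤ P.r * P.err2 / t ^ 2 := by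
    rw [eQ]
    refine (Finset.abs_sum_le_sum_abs _ _).trans ((Finset.sum_le_card_nsmul _ _
      (P.err2 / t ^ 2) fun c _ => ?_).trans (le_of_eq ?_))
    · refine (abs_add_le _ _).trans ?_
      have j1 : |S.ev χ ((z.side y c).first (m c))| ≤ P.cLin * P.dMax / t ^ 2 :=
        ((hz.first_le hB hP hy hyE (hm c).1).trans
          (mul_le_mul_of_nonneg_left ((hm c).2.2.trans (dMax_le hP).2) hCL)).trans
          (le_div_self (by positivity) (by positivity) (pow_le_one₀ ht.le ht1))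
      have j2 : |S.ev χ ((z.side y c).quad (z.a c * u c))| ≤
          3 * P.cQuad * P.cN * P.dMax ^ 2 / t ^ 2 := by
        refine (hz.quad_le hB hP hy hyE (hf c).1).trans ?_
        rw [mul_div_assoc _ (P.dMax ^ 2), ← div_pow]
        exact mul_le_mul_of_nonneg_left (pow_le_pow_left₀ (norm_nonneg _)
          ((hf c).2.1.trans (div_le_div_of_nonneg_right (dMax_le hP).1 ht.le)) 2) (by positivity)
      rw [Par.err2, add_div]
      exact add_le_add j1 j2
    · rw [Finset.card_univ, Fintype.card_fin, nsmul_eq_mul]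
      ring
  exact ⟨hAb, hQb⟩

lemma delta_le {C : ℝ} (hC : 0 ≤ C) (ht : 0 < t) (ht1 : t ≤ 1)
    (hu : ∀ c, Asa S (u c) ∧ z.live c * u c = u c ∧ ∀ χ : S.Chi, |S.ev χ (u c)| ≤ 1 / t)
    (hm : ∀ c, Asa S (m c) ∧ z.live c * m c = m c ∧ ‖m c‖ ≤ P.lamMax ^ 2 * P.tau⁻¹)
    (hl : (z.bump (stepVec z t u m)).Loose P y)
    (hE : ∀ (c : Fin P.r) (χ : S.Chi), S.ev χ (z.live c) = 1 →
      |S.ev χ ((z.bump (stepVec z t u m)).side y c).pot *
            S.ev χ ((z.bump (stepVec z t u m)).side y c).fz -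
          S.ev χ (z.side y c).pot * S.ev χ (z.side y c).fz -
          S.ev χ ((z.side y c).first (stepVec z t u m c)) -
          S.ev χ ((z.side y c).quad (stepVec z t u m c))| ≤ C * ‖stepVec z t u m c‖ ^ 3) (χ : S.Chi) :
    |S.ev χ ((z.bump (stepVec z t u m)).F y) - S.ev χ (z.F y) - t ^ 5 * S.ev χ (z.lin y u) -
        t ^ 10 * S.ev χ (z.snd y u m)| ≤ t ^ 12 * (P.r * P.err1 C) := by
  have hf := fun c => hz.stepVec_facts hP ht ht1 hu hm c
  have he1 := P.err1_nonneg hP hC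
  set A := S.ev χ (z.lin y u) with hA
  set Q := S.ev χ (z.snd y u m) with hQ
  have eA : A = ∑ c, S.ev χ ((z.side y c).first (z.a c * u c)) := by
    rw [hA, St.lin, ev_sum _ _ fun c _ => (hz.first_asa hB hP hy (hf c).1).1]
  have eQ : Q = ∑ c, (S.ev χ ((z.side y c).first (m c)) +
      S.ev χ ((z.side y c).quad (z.a c * u c))) := by
    rw [hQ, St.snd, ev_sum _ _ fun c _ => ((hz.first_asa hB hP hy (hm c).1).add
      (hz.quad_asa hB hP hy (hf c).1)).1]
    exact Finset.sum_congr rfl fun c _ =>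
      Asa.ev_add (hz.first_asa hB hP hy (hm c).1) (hz.quad_asa hB hP hy (hf c).1) χ
  rw [ev_F hB hl.toCore hy, ev_F hB hz.toCore hy, eA, eQ,
    show (z.bump (stepVec z t u m)).loss = z.loss from rfl, add_sub_add_right_eq_sub, Finset.mul_sum,
    Finset.mul_sum, ← Finset.sum_sub_distrib, ← Finset.sum_sub_distrib,
    ← Finset.sum_sub_distrib]
  refine (Finset.abs_sum_le_sum_abs _ _).trans
    ((Finset.sum_le_card_nsmul _ _ (t ^ 12 * P.err1 C) fun c _ => ?_).trans (le_of_eq ?_))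
  · rcases hz.toCore.ev_live c χ with e' | e'
    · have h0 : S.ev χ ((z.side y c).first (z.a c * u c)) = 0 ∧
          S.ev χ ((z.side y c).first (m c)) = 0 ∧
          S.ev χ ((z.side y c).quad (z.a c * u c)) = 0 := by
        refine ⟨?_, ?_, ?_⟩
        · rw [hz.ev_first hB hP hy (hf c).1, e', zero_mul]
        · rw [hz.ev_first hB hP hy (hm c).1, e', zero_mul]
        · rw [hz.ev_quad hB hP hy (hf c).1, e', zero_mul]
      rw [h0.1, h0.2.1, h0.2.2, show (z.bump (stepVec z t u m)).live c = z.live c from rfl, e']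
      simp only [zero_mul, mul_zero, add_zero, sub_zero, abs_zero]
      positivity
    · rw [show (z.bump (stepVec z t u m)).live c = z.live c from rfl, e', one_mul, one_mul]
      exact hz.col_le hB hP hy hyE hC ht ht1 hu hm hE c χ e'
  · rw [Finset.card_univ, Fintype.card_fin, nsmul_eq_mul]
    ring

lemma point_le {C : ℝ} (hC : 0 ≤ C) (ht : 0 < t) (ht1 : t ≤ 1)
    (hu : ∀ c, Asa S (u c) ∧ z.live c * u c = u c ∧ ∀ χ : S.Chi, |S.ev χ (u c)| ≤ 1 / t)
    (hm : ∀ c, Asa S (m c) ∧ z.live c * m c = m c ∧ ‖m c‖ ≤ P.lamMax ^ 2 * P.tau⁻¹)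
    (ht3 : P.kap * (t ^ 4 * P.err3 C) ≤ 1)
    (hl : (z.bump (stepVec z t u m)).Loose P y)
    (hE : ∀ (c : Fin P.r) (χ : S.Chi), S.ev χ (z.live c) = 1 →
      |S.ev χ ((z.bump (stepVec z t u m)).side y c).pot *
            S.ev χ ((z.bump (stepVec z t u m)).side y c).fz -
          S.ev χ (z.side y c).pot * S.ev χ (z.side y c).fz -
          S.ev χ ((z.side y c).first (stepVec z t u m c)) -
          S.ev χ ((z.side y c).quad (stepVec z t u m c))| ≤ C * ‖stepVec z t u m c‖ ^ 3) (χ : S.Chi) :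
    S.ev χ (z.act * phi S P.kap ((z.bump (stepVec z t u m)).F y)) -
      S.ev χ (z.act * phi S P.kap (z.F y)) -
      P.lam2 * (S.ev χ (z.act * (z.bump (stepVec z t u m)).F y) - S.ev χ (z.act * z.F y)) ≤
      -(t ^ 5 * (S.ev χ (z.wt y) * S.ev χ (z.lin y u))) -
        t ^ 10 * (S.ev χ (z.wt y) * S.ev χ (z.snd y u m)) +
        2 * P.kap ^ 2 * t ^ 10 * S.ev χ (z.lin y u) ^ 2 +
        ((P.kap + P.lam2) * (P.r * P.err1 C) +
          2 * P.kap ^ 2 * (P.r * (P.err2 + P.err1 C)) ^ 2) * t ^ 12 := by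
  have he1 := P.err1_nonneg hP hC
  have he2 := P.err2_nonneg hP
  have hCL := P.cLin_nonneg hP
  have hD := P.dMax_pos hP
  have hact : Asa S z.act := ⟨hz.act_mem, hz.act_proj.isSelfAdjoint⟩
  have hF : z.F y ∈ S.A := F_mem hB hz.toCore hy
  have hF' : (z.bump (stepVec z t u m)).F y ∈ S.A := F_mem hB hl.toCore hy
  obtain ⟨hAb, hQb⟩ := hz.lin_snd_le hB hP hy hyE ht ht1 hu hm χ
  have hR := hz.delta_le hB hP hy hyE hC ht ht1 hu hm hl hE χ
  have hEphi : ∀ F : Op H, S.ev χ (phi S P.kap F) = Real.exp (-P.kap * (S.ev χ F - 3 / 5)) :=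
    fun F => ev_appA _ _ _
  rw [Asa.ev_mul hact (phi_asa (S := S) (P := P) (F := (z.bump (stepVec z t u m)).F y)),
    Asa.ev_mul hact (phi_asa (S := S) (P := P) (F := z.F y)),
    Tracial.ev_mul hact.1 hF' hact.2, Tracial.ev_mul hact.1 hF hact.2, hEphi, hEphi]
  have rhs0 : 0 ≤ 2 * P.kap ^ 2 * t ^ 10 * S.ev χ (z.lin y u) ^ 2 +
      ((P.kap + P.lam2) * (P.r * P.err1 C) +
        2 * P.kap ^ 2 * (P.r * (P.err2 + P.err1 C)) ^ 2) * t ^ 12 := by
    have := hP.kap_pos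
    have := hP.lam2_pos
    positivity
  have hwv : S.ev χ (z.wt y) = S.ev χ z.act *
      (P.kap * S.ev χ (phi S P.kap (z.F y)) + P.lam2) := by
    have hp : Asa S (phi S P.kap (z.F y)) := phi_asa
    rw [St.wt, Asa.ev_mul hact ((hp.smul _).add (Asa.one.smul _)),
      Asa.ev_add (hp.smul _) (Asa.one.smul _), ev_smul _ hp.1, ev_smul _ (one_mem _), ev_one,
      mul_one]
  rcases ev_proj (χ := χ) hz.act_mem hz.act_proj with e | e
  · rw [e, zero_mul] at hwv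
    rw [e, hwv]
    linarith
  rw [e, one_mul, hEphi] at hwv
  rw [e]
  simp only [one_mul]
  refine (exp_step hP.kap_pos hP.lam2_pos ht ht1 (hz.act_F χ e) hAb hQb hR
    (by positivity) (by positivity)
    (le_trans (le_of_eq (by rw [Par.err3]; ring)) ht3) (w := S.ev χ (z.wt y)) hwv).trans (le_of_eq (by ring))

omit hB hyE in
lemma gam_le {C : ℝ} (hC : 0 ≤ C) (ht : 0 < t) (ht1 : t ≤ 1)
    (hu : ∀ c, Asa S (u c) ∧ z.live c * u c = u c ∧ ∀ χ : S.Chi, |S.ev χ (u c)| ≤ 1 / t)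
    (hm : ∀ c, Asa S (m c) ∧ z.live c * m c = m c ∧ ‖m c‖ ≤ P.lamMax ^ 2 * P.tau⁻¹)
    (hG : ∀ (c : Fin P.r) (σ : Bool),
      |S.tr (z.sup c * (z.bump (stepVec z t u m)).G y c σ) - S.tr (z.sup c * z.G y c σ) +
          S.tr (z.sup c * (z.G y c σ * stepVec z t u m c * z.G y c σ)) -
          S.tr (z.sup c * (z.G y c σ * stepVec z t u m c * z.G y c σ * stepVec z t u m c *
            z.G y c σ))| ≤ C * ‖stepVec z t u m c‖ ^ 3) (c : Fin P.r) (σ : Bool) :
    S.tr (z.sup c * (z.bump (stepVec z t u m)).G y c σ) - S.tr (z.sup c * z.G y c σ) ≤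
      -(t ^ 5 * S.tr (z.sup c * (z.G y c σ * (z.a c * u c) * z.G y c σ))) +
      t ^ 10 * (S.tr (z.sup c * (z.G y c σ * (z.a c * u c) * z.G y c σ * (z.a c * u c) *
          z.G y c σ)) - S.tr (z.sup c * (z.G y c σ * m c * z.G y c σ))) +
      (C * P.dMax ^ 3 + 3 * P.tau⁻¹ ^ 3 * P.dMax ^ 2) * t ^ 12 := by
  obtain ⟨hau, -, hda, -, hdn4⟩ := hz.stepVec_facts hP ht ht1 hu hm c
  have hdn : ‖stepVec z t u m c‖ ^ 3 ≤ t ^ 12 * P.dMax ^ 3 :=
    (pow_le_pow_left₀ (norm_nonneg _) hdn4 3).trans (le_of_eq (by ring))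
  have hs6 : (0 : ℝ) < t ^ 6 := by positivity
  have hv : ‖t ^ 10 • m c‖ ≤ t ^ 10 * P.dMax := by
    rw [norm_smul, Real.norm_of_nonneg (pow_nonneg ht.le 10)]
    exact mul_le_mul_of_nonneg_left ((hm c).2.2.trans (dMax_le hP).2) (by positivity)
  have hdv : stepVec z t u m c - t ^ 5 • (z.a c * u c) = t ^ 10 • m c := by
    rw [stepVec, add_sub_cancel_left]
  set d := stepVec z t u m with hd
  have i1 := (abs_le.1 ((hG c σ).trans (mul_le_mul_of_nonneg_left hdn hC))).2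
  have hGm := hz.toCore.G_mem hy c σ
  have hG0 := hz.G_nonneg hP c σ
  have hGn := hz.norm_G_le hP c σ
  have hsM := hz.toCore.sup_memM c
  have elin : S.tr (z.sup c * (z.G y c σ * d c * z.G y c σ)) =
      t ^ 5 * S.tr (z.sup c * (z.G y c σ * (z.a c * u c) * z.G y c σ)) +
        t ^ 10 * S.tr (z.sup c * (z.G y c σ * m c * z.G y c σ)) := by
    rw [hd, stepVec]
    simp only [mul_add, add_mul, mul_smul_comm, smul_mul_assoc, S.tr_add, S.tr_smul]
  set X := z.G y c σ * z.sup c * z.G y c σ with hX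
  have hXm : X ∈ S.M := mul_mem (mul_mem hGm hsM) hGm
  have hX0 : 0 ≤ X := sandwich_nonneg (hz.toCore.sup_proj c).nonneg (hz.G_sa hP c σ)
  have hXn : ‖X‖ ≤ P.tau⁻¹ * 1 * P.tau⁻¹ := norm_mul₃_le.trans (mul_le_mul
    (mul_le_mul hGn (hz.toCore.sup_proj c).norm_le (norm_nonneg _)
      (inv_nonneg.2 hP.tau_pos.le)) hGn (norm_nonneg _)
    (mul_nonneg (inv_nonneg.2 hP.tau_pos.le) zero_le_one))
  have ecyc : ∀ {b : Op H}, b ∈ S.M →
      S.tr (z.sup c * (z.G y c σ * b * z.G y c σ * b * z.G y c σ)) =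
        S.tr (X * (b * z.G y c σ * b)) := fun {b} hb => by
    have e1 : z.sup c * (z.G y c σ * b * z.G y c σ * b * z.G y c σ) =
        z.sup c * z.G y c σ * (b * z.G y c σ * b) * z.G y c σ := by noncomm_ring
    rw [e1, S.tr_comm (mul_mem (mul_mem hsM hGm) (mul_mem (mul_mem hb hGm) hb)) hGm]
    congr 1
  have i2 : S.tr (X * (d c * z.G y c σ * d c)) -
      t ^ 10 * S.tr (X * (z.a c * u c * z.G y c σ * (z.a c * u c))) ≤
      3 * P.tau⁻¹ ^ 3 * P.dMax ^ 2 * t ^ 12 := by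
    have hsd := (sandwich_diff_le hG0 hda.2 (hau.smul (t ^ 5)).2 hs6).1
    have hq : ∀ {b : Op H}, Asa S b → b * z.G y c σ * b ∈ S.M := fun hb =>
      mul_mem (mul_mem hb.memM hGm) hb.memM
    have k := tr_mul_mono hXm (sub_mem (hq hda) (hq (hau.smul _)))
      (add_mem (S.rsmul_mem_M _ (hq hda)) (S.rsmul_mem_M _ (hq (hda.sub (hau.smul _))))) hX0 hsd
    have hk : ∀ (a : ℝ) (q : Op H), S.tr (X * (a • q)) = a * S.tr (X * q) := fun a q => by
      rw [mul_smul_comm, S.tr_smul]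
    rw [mul_sub, S.tr_sub, mul_add, S.tr_add, hk, hk, hdv] at k
    have e2 : S.tr (X * (t ^ 5 • (z.a c * u c) * z.G y c σ * t ^ 5 • (z.a c * u c))) =
        t ^ 10 * S.tr (X * (z.a c * u c * z.G y c σ * (z.a c * u c))) := by
      simp only [smul_mul_assoc, mul_smul_comm, smul_smul, S.tr_smul]
      ring
    rw [e2] at k
    have n1 : ∀ {b : Op H} {β : ℝ}, Asa S b → ‖b‖ ≤ β →
        S.tr (X * (b * z.G y c σ * b)) ≤ P.tau⁻¹ ^ 3 * β ^ 2 := fun {b β} hb hβ => by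
      have hγ : 0 ≤ P.tau⁻¹ := inv_nonneg.2 hP.tau_pos.le
      refine (tr_sandwich_le hGm hG0 hGn hb.memM hb.2 hXm hX0 hXn).trans ?_
      refine (mul_le_mul_of_nonneg_left (((le_abs_self _).trans (S.abs_tr_le _)).trans
        ((norm_mul_le b b).trans (mul_le_mul hβ hβ (norm_nonneg _)
          ((norm_nonneg b).trans hβ)))) (by positivity)).trans (le_of_eq (by ring))
    have k1 := mul_le_mul_of_nonneg_left (n1 hda hdn4) hs6.le
    have k2 := mul_le_mul_of_nonneg_left (n1 ((hm c).1.smul (t ^ 10)) hv)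
      (show (0 : ℝ) ≤ 1 + (t ^ 6)⁻¹ by positivity)
    have k3 := mul_le_mul_of_nonneg_left
      (cross_le (P := P) ht ht1)
      (show 0 ≤ P.tau⁻¹ ^ 3 by have := hP.tau_pos; positivity)
    linarith
  rw [elin, ecyc hda.memM] at i1
  rw [ecyc hau.memM]
  linarith

lemma pot_le {C : ℝ} (hC : 0 ≤ C) (ht : 0 < t) (ht1 : t ≤ 1)
    (hu : ∀ c, Asa S (u c) ∧ z.live c * u c = u c ∧ ∀ χ : S.Chi, |S.ev χ (u c)| ≤ 1 / t)
    (hm : ∀ c, Asa S (m c) ∧ z.live c * m c = m c ∧ ‖m c‖ ≤ P.lamMax ^ 2 * P.tau⁻¹)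
    (ht3 : P.kap * (t ^ 4 * P.err3 C) ≤ 1)
    (hl : (z.bump (stepVec z t u m)).Loose P y)
    (hE : ∀ (c : Fin P.r) (χ : S.Chi), S.ev χ (z.live c) = 1 →
      |S.ev χ ((z.bump (stepVec z t u m)).side y c).pot *
            S.ev χ ((z.bump (stepVec z t u m)).side y c).fz -
          S.ev χ (z.side y c).pot * S.ev χ (z.side y c).fz -
          S.ev χ ((z.side y c).first (stepVec z t u m c)) -
          S.ev χ ((z.side y c).quad (stepVec z t u m c))| ≤ C * ‖stepVec z t u m c‖ ^ 3) :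
    S.tr (z.act * phi S P.kap ((z.bump (stepVec z t u m)).F y)) -
      S.tr (z.act * phi S P.kap (z.F y)) -
      P.lam2 * (S.tr (z.act * (z.bump (stepVec z t u m)).F y) - S.tr (z.act * z.F y)) ≤
      -(t ^ 5 * S.tr (z.wt y * z.lin y u)) - t ^ 10 * S.tr (z.wt y * z.snd y u m) +
        2 * P.kap ^ 2 * t ^ 10 * S.tr (z.lin y u * z.lin y u) +
        ((P.kap + P.lam2) * (P.r * P.err1 C) +
          2 * P.kap ^ 2 * (P.r * (P.err2 + P.err1 C)) ^ 2) * t ^ 12 := by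
  have hact : Asa S z.act := ⟨hz.act_mem, hz.act_proj.isSelfAdjoint⟩
  have hw := hz.wt_asa
  have hlin := hz.lin_asa hB hP hy (fun c => (hu c).1)
  have hsnd := hz.snd_asa hB hP hy (fun c => (hu c).1) (fun c => (hm c).1)
  have a1 : Asa S (z.act * (z.bump (stepVec z t u m)).F y) :=
    hact.mul (F_asa hB hl.toCore hy (half_pos hP.tau_pos) hl.K_lo)
  have a2 : Asa S (z.act * z.F y) := hact.mul (F_asa hB hz.toCore hy hP.tau_pos hz.K_lo)
  have b1 : Asa S (z.act * phi S P.kap ((z.bump (stepVec z t u m)).F y)) := hact.mul phi_asa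
  have b2 : Asa S (z.act * phi S P.kap (z.F y)) := hact.mul phi_asa
  have L := (b1.sub b2).sub ((a1.sub a2).smul P.lam2)
  have R1 := ((hw.mul hlin).smul (t ^ 5)).neg
  have R2 := (hw.mul hsnd).smul (t ^ 10)
  have R3 := (hlin.mul hlin).smul (2 * P.kap ^ 2 * t ^ 10)
  have R4 := (Asa.one (S := S)).smul (((P.kap + P.lam2) * (P.r * P.err1 C) +
        2 * P.kap ^ 2 * (P.r * (P.err2 + P.err1 C)) ^ 2) * t ^ 12)
  have hle := tr_le_of_ev L (((R1.sub R2).add R3).add R4) fun χ => by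
      rw [Asa.ev_sub (b1.sub b2) ((a1.sub a2).smul _), Asa.ev_sub b1 b2,
        ev_smul _ (a1.sub a2).1, Asa.ev_sub a1 a2, Asa.ev_add ((R1.sub R2).add R3) R4,
        Asa.ev_add (R1.sub R2) R3, Asa.ev_sub R1 R2, Tracial.ev_neg ((hw.mul hlin).smul _).1,
        ev_smul _ (hw.mul hlin).1, ev_smul _ (hw.mul hsnd).1, ev_smul _ (hlin.mul hlin).1,
        ev_smul _ (one_mem _), ev_one, Asa.ev_mul hw hlin, Asa.ev_mul hw hsnd,
        Asa.ev_mul hlin hlin, ← sq, mul_one]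
      exact hz.point_le hB hP hy hyE hC ht ht1 hu hm ht3 hl hE χ
  simp only [S.tr_sub, S.tr_add, S.tr_smul, S.tr_neg, tr_one, mul_one] at hle
  linarith

/-- The objective along one sign vector. -/
theorem obj_bump_le {C : ℝ} (hC : 0 ≤ C) (ht : 0 < t) (ht1 : t ≤ 1)
    (ht3 : P.kap * (t ^ 4 * P.err3 C) ≤ 1)
    (hu : ∀ c, Asa S (u c) ∧ z.live c * u c = u c ∧ ∀ χ : S.Chi, |S.ev χ (u c)| ≤ 1 / t)
    (hm : ∀ c, Asa S (m c) ∧ z.live c * m c = m c ∧ ‖m c‖ ≤ P.lamMax ^ 2 * P.tau⁻¹)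
    (hl : (z.bump (stepVec z t u m)).Loose P y)
    (hE : ∀ (c : Fin P.r) (χ : S.Chi), S.ev χ (z.live c) = 1 →
      |S.ev χ ((z.bump (stepVec z t u m)).side y c).pot *
            S.ev χ ((z.bump (stepVec z t u m)).side y c).fz -
          S.ev χ (z.side y c).pot * S.ev χ (z.side y c).fz -
          S.ev χ ((z.side y c).first (stepVec z t u m c)) -
          S.ev χ ((z.side y c).quad (stepVec z t u m c))| ≤ C * ‖stepVec z t u m c‖ ^ 3)
    (hG : ∀ (c : Fin P.r) (σ : Bool),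
      |S.tr (z.sup c * (z.bump (stepVec z t u m)).G y c σ) - S.tr (z.sup c * z.G y c σ) +
          S.tr (z.sup c * (z.G y c σ * stepVec z t u m c * z.G y c σ)) -
          S.tr (z.sup c * (z.G y c σ * stepVec z t u m c * z.G y c σ * stepVec z t u m c *
            z.G y c σ))| ≤ C * ‖stepVec z t u m c‖ ^ 3) :
    (z.bump (stepVec z t u m)).obj P y - z.obj P y ≤
      -(t ^ 5 * (S.tr (z.wt y * z.lin y u) +
          P.lam1 * ∑ c, ∑ σ, S.tr (z.sup c * (z.G y c σ * (z.a c * u c) * z.G y c σ)))) -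
        t ^ 10 * S.tr (z.wt y * z.snd y u m) +
        2 * P.kap ^ 2 * t ^ 10 * S.tr (z.lin y u * z.lin y u) +
        P.lam1 * t ^ 10 * ∑ c, ∑ σ,
          (S.tr (z.sup c * (z.G y c σ * (z.a c * u c) * z.G y c σ * (z.a c * u c) * z.G y c σ)) -
            S.tr (z.sup c * (z.G y c σ * m c * z.G y c σ))) +
        P.errObj C * t ^ 12 := by
  set z' := z.bump (stepVec z t u m) with hz'
  have htr := hz.pot_le hB hP hy hyE hC ht ht1 hu hm ht3 hl hE
  have hz'act : z'.act = z.act := rfl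
  have hsum := Finset.sum_le_sum fun c (_ : c ∈ Finset.univ) =>
    Finset.sum_le_sum fun σ (_ : σ ∈ Finset.univ) => hz.gam_le hP hy hC ht ht1 hu hm hG c σ
  simp only [Finset.sum_sub_distrib, Finset.sum_add_distrib, Finset.sum_neg_distrib,
    ← Finset.mul_sum, Finset.sum_const, Finset.card_univ, Fintype.card_bool, Fintype.card_fin,
    nsmul_eq_mul] at hsum
  have hg' : z'.gam P y = ∑ c, ∑ σ, S.tr (z.sup c * z'.G y c σ) := rfl
  have hg : z.gam P y = ∑ c, ∑ σ, S.tr (z.sup c * z.G y c σ) := rfl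
  have e1 : z'.mF = z.mF := rfl
  have e2 : z'.beta = z.beta := rfl
  simp only [St.obj, hg', hg, e1, e2, hz'act, Finset.sum_sub_distrib]
  push_cast at hsum
  have := mul_le_mul_of_nonneg_left hsum hP.lam1_pos.le
  rw [Par.errObj]
  linarith

end St.Strict

end Vale.Agent.P078.Tr.Iter
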