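import Vale.Agent.P078.Tr.Iter.Facts

/-!
# Step: first and second variations in one variable, and the statement of the expansion
-/

open scoped ComplexOrder InnerProductSpace

noncomputable section

namespace Vale.Agent.P078.Tr

universe u

variable {H : Type u} [NormedAddCommGroup H] [InnerProductSpace ℂ H] [CompleteSpace H]

namespace Side

variable {S : Tracial H} (d : Side S)

/-- The first variation of `pot * fz` under `a ↦ a + b`; so `row b = first (a * b)`. -/
def first (b : Op H) : Op H :=
  d.e * (-(d.fz * d.pot' * (d.p * d.p) * b) - d.pot * (d.L false b + d.L true b))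

/-- The second order part of the variation of `xi` under `a ↦ a + b`. -/
def xiQuad (s : Bool) (b : Op H) : Op H :=
  d.gi s * d.gi s * S.E (d.G s * b * d.G s * b * d.G s) -
    d.gi s * d.gi s * d.gi s * (S.E (d.G s * b * d.G s) * S.E (d.G s * b * d.G s))

/-- The second order part of the variation of `pot * fz` under `a ↦ a + b`; so
`second D f = first (mu D) + ∑ j, quad (a * f j)`. -/
def quad (b : Op H) : Op H :=
  d.e * (d.fz * ((d.pot' * (d.p * d.p * d.p) + kB • (d.p * d.p * d.p * d.p)) * (b * b)) -
    d.pot * (d.xiQuad false b + d.xiQuad true b) +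
    d.pot' * (d.p * d.p) * (b * (d.L false b + d.L true b)))

end Side

namespace Iter

namespace St

variable {S : Tracial H} {r : ℕ}

/-- Change the weights. -/
def bump (z : St S r) (d : Fin r → Op H) : St S r := { z with a := fun c => z.a c + d c }

end St

/-- Part Expand: the effect of a small change of the weights on live points, up to third order,
with a constant depending only on the parameters. -/
def ExpandStatement : Prop :=
  ∀ P : Par, P.Ok → ∃ C : ℝ, 0 ≤ C ∧
    ∀ (H : Type u) [NormedAddCommGroup H] [InnerProductSpace ℂ H] [CompleteSpace H]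
      (S : Tracial H) (y : Op H) (z : St S P.r) (d : Fin P.r → Op H),
      Basics S → y ∈ S.M → IsSelfAdjoint y → S.E y = 0 → z.Strict P y →
      (∀ c, d c ∈ S.A ∧ IsSelfAdjoint (d c) ∧ z.live c * d c = d c ∧ ‖d c‖ ≤ P.tau / 2) →
      (z.bump d).Loose P y ∧
      (∀ (c : Fin P.r) (χ : S.Chi), S.ev χ (z.live c) = 1 →
        |S.ev χ ((z.bump d).side y c).pot * S.ev χ ((z.bump d).side y c).fz -
            S.ev χ (z.side y c).pot * S.ev χ (z.side y c).fz -
            S.ev χ ((z.side y c).first (d c)) - S.ev χ ((z.side y c).quad (d c))| ≤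
          C * ‖d c‖ ^ 3) ∧
      ∀ (c : Fin P.r) (σ : Bool),
        |S.tr (z.sup c * (z.bump d).G y c σ) - S.tr (z.sup c * z.G y c σ) +
            S.tr (z.sup c * (z.G y c σ * d c * z.G y c σ)) -
            S.tr (z.sup c * (z.G y c σ * d c * z.G y c σ * d c * z.G y c σ))| ≤
          C * ‖d c‖ ^ 3

end Iter

end Vale.Agent.P078.Tr
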