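import Vale.Agent.P078.Tr.Iter.Step.Avg
import Vale.Agent.P078.Tr.Drift.Form

/-!
# Step: what one colour feeds to the modules Covariance and Drift

The side of a colour is valid, its first variation is a map, its second variation splits, and the
change of the resolvent term is a positive form.
-/

open scoped ComplexOrder InnerProductSpace

noncomputable section

namespace Vale.Agent.P078.Tr.Iter

universe u

variable {H : Type u} [NormedAddCommGroup H] [InnerProductSpace ℂ H] [CompleteSpace H]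
  {S : Tracial H}

open Tracial

variable {P : Par} {y : Op H} {z : St S P.r} {c : Fin P.r} {σ : Bool} {χ : S.Chi}

namespace St.Strict

variable (hB : Basics S) (hP : P.Ok) (hy : y ∈ S.M) (hyE : S.E y = 0) (hz : z.Strict P y)

section basic

include hP hz

lemma inverse_G (c : Fin P.r) (σ : Bool) : Ring.inverse (z.G y c σ) = z.K y c σ := by
  obtain ⟨u, hu⟩ := isUnit_of_le hP.tau_pos (hz.K_lo c σ)
  rw [St.G, ← hu, Ring.inverse_unit, Ring.inverse_unit, inv_inv]

lemma isUnit_G (c : Fin P.r) (σ : Bool) : IsUnit (z.G y c σ) := by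
  obtain ⟨u, hu⟩ := isUnit_of_le hP.tau_pos (hz.K_lo c σ)
  rw [St.G, ← hu, Ring.inverse_unit]
  exact u⁻¹.isUnit

include hB hy

lemma g_asa : Asa S ((z.side y c).g σ) :=
  Asa.of_E hB (hz.toCore.G_mem hy c σ) (hz.G_sa hP c σ)

lemma xi_asa : Asa S ((z.side y c).xi σ) :=
  Asa.sub ⟨hz.a_mem c, hz.a_sa c⟩ (hz.gi_asa hB hP hy)

lemma eps_asa : Asa S (z.side y c).eps :=
  (hz.e_asa).mul ((hz.p_asa.mul (hz.fz_asa hB hP hy)).smul kK)

end basic

section valid

include hB hP hy hyE hz

/-- The side of a colour is valid. -/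
lemma valid : (z.side y c).Valid P.c0 := by
  have hc := hz.toCore
  have he : Asa S (z.side y c).e := hz.e_asa
  refine
    { e_mem := hz.live_mem c
      e_proj := hz.live_proj c
      a_mem := hz.a_mem c
      a_sa := hz.a_sa c
      a_unit := St.a_isUnit hc c
      G_mem := fun s => hc.G_mem hy c s
      G_nonneg := fun s => hz.G_nonneg hP c s
      G_unit := fun s => hz.isUnit_G hP c s
      p_lo := ?_, p_hi := ?_, fz_lo := ?_, xi_lo := fun s => ?_, K_hi := fun s => ?_ }
  · refine (le_iff (he.smul _).1 (he.mul hz.p_asa).1 (he.smul _).2 (he.mul hz.p_asa).2).2 fun χ => ?_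
    rw [Tracial.ev_smul _ he.1, Asa.ev_mul he hz.p_asa, St.ev_p hc]
    rcases hc.ev_live c χ with e | e <;> change S.ev χ (z.side y c).e = _ at e <;> rw [e]
    · simp
    · obtain ⟨h1, h2⟩ := hz.live_a c χ e
      rw [one_mul, mul_one, le_inv_comm₀ hP.c0_pos (by linarith)]
      rwa [← one_div]
  · refine (le_iff (he.mul hz.p_asa).1 (he.smul _).1 (he.mul hz.p_asa).2 (he.smul _).2).2 fun χ => ?_
    rw [Tracial.ev_smul _ he.1, Asa.ev_mul he hz.p_asa, St.ev_p hc]
    rcases hc.ev_live c χ with e | e <;> change S.ev χ (z.side y c).e = _ at e <;> rw [e]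
    · simp
    · obtain ⟨h1, h2⟩ := hz.live_a c χ e
      rw [one_mul, mul_one, inv_le_comm₀ (by linarith) (by norm_num)]
      linarith
  · have hf := hz.fz_asa (c := c) hB hP hy
    refine (le_iff (he.smul _).1 (he.mul hf).1 (he.smul _).2 (he.mul hf).2).2 fun χ => ?_
    rw [Tracial.ev_smul _ he.1, Asa.ev_mul he hf]
    rcases hc.ev_live c χ with e | e <;> change S.ev χ (z.side y c).e = _ at e <;> rw [e]
    · simp
    · rw [one_mul, mul_one]; exact hz.live_fz c χ e
  · have hx := hz.xi_asa (c := c) (σ := s) hB hP hy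
    refine (le_iff (he.smul _).1 (he.mul hx).1 (he.smul _).2 (he.mul hx).2).2 fun χ => ?_
    rw [Tracial.ev_smul _ he.1, Asa.ev_mul he hx]
    rcases hc.ev_live c χ with e | e <;> change S.ev χ (z.side y c).e = _ at e <;> rw [e]
    · simp
    · have h1 := (St.xi_ge hB hc hy hyE hP.tau_pos (hz.K_lo c s) e).1
      have h2 := hz.live_B c s χ e
      linarith
  · have hK : Asa S (S.E (Ring.inverse ((z.side y c).G s))) := by
      show Asa S (S.E (Ring.inverse (z.G y c s)))
      rw [hz.inverse_G hP]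
      exact Asa.of_E hB (hc.K_mem hy c s) (isSelfAdjoint_of_le (hz.K_lo c s))
    have ha : Asa S (z.side y c).a := ⟨hz.a_mem c, hz.a_sa c⟩
    refine (le_iff (he.mul hK).1 ((he.mul ha).add (he.smul _)).1 (he.mul hK).2
      ((he.mul ha).add (he.smul _)).2).2 fun χ => ?_
    rw [Asa.ev_add (he.mul ha) (he.smul _), Asa.ev_mul he hK, Asa.ev_mul he ha,
      Tracial.ev_smul _ he.1]
    rcases hc.ev_live c χ with e | e <;> change S.ev χ (z.side y c).e = _ at e <;> rw [e]
    · simp
    · show 1 * S.ev χ (S.E (Ring.inverse (z.G y c s))) ≤ 1 * S.ev χ (z.a c) + _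
      rw [hz.inverse_G hP, hc.ev_E_K hB hy hyE, hc.ev_sup_of_live e]
      linarith [hz.live_B c s χ e]

/-- The slack lies between a constant and one on live points. -/
lemma eps_bounds : Asa S (z.side y c).eps ∧ P.c0 ^ 2 • z.live c ≤ (z.side y c).eps ∧
    (z.side y c).eps ≤ z.live c := by
  have hc := hz.toCore
  have he : Asa S (z.live c) := hz.e_asa (y := y) (c := c)
  have hE : Asa S (z.side y c).eps := hz.eps_asa hB hP hy
  have hev : ∀ χ : S.Chi, S.ev χ (z.side y c).eps =
      S.ev χ (z.live c) * (kK * ((S.ev χ (z.a c))⁻¹ * S.ev χ (z.side y c).fz)) := fun χ => by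
    rw [Side.eps, Asa.ev_mul hz.e_asa ((hz.p_asa.mul (hz.fz_asa hB hP hy)).smul kK),
      Tracial.ev_smul _ (hz.p_asa.mul (hz.fz_asa hB hP hy)).1,
      Asa.ev_mul hz.p_asa (hz.fz_asa hB hP hy), St.ev_p hc]
    rfl
  have key : ∀ χ : S.Chi, S.ev χ (z.live c) = 1 →
      P.c0 ^ 2 ≤ kK * ((S.ev χ (z.a c))⁻¹ * S.ev χ (z.side y c).fz) ∧
        kK * ((S.ev χ (z.a c))⁻¹ * S.ev χ (z.side y c).fz) ≤ 1 := fun χ e => by
    obtain ⟨h1, h2⟩ := hz.live_a c χ e
    have hf := hz.live_fz c χ e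
    have hp : P.c0 ≤ (S.ev χ (z.a c))⁻¹ := by
      rw [le_inv_comm₀ hP.c0_pos (by linarith)]; rwa [← one_div]
    have hp' : (S.ev χ (z.a c))⁻¹ ≤ 1 / 500 := by
      rw [one_div]; exact inv_anti₀ (by norm_num) h1
    have hf' := (St.live_bounds hB hc hy hyE hP.tau_pos (fun s => hz.K_lo c s) e
      (by linarith)).2.2
    have h0 := hP.c0_pos
    have hm : P.c0 * P.c0 ≤ (S.ev χ (z.a c))⁻¹ * S.ev χ (z.side y c).fz :=
      mul_le_mul hp hf h0.le (le_trans h0.le hp)
    have hM : (S.ev χ (z.a c))⁻¹ * S.ev χ (z.side y c).fz ≤ 1 / 500 * (51 / 50) :=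
      mul_le_mul hp' hf' (le_trans h0.le hf) (by norm_num)
    rw [kK]
    constructor <;> nlinarith
  refine ⟨hE, ?_, ?_⟩
  · refine (le_iff (he.smul _).1 hE.1 (he.smul _).2 hE.2).2 fun χ => ?_
    rw [Tracial.ev_smul _ he.1, hev]
    rcases hc.ev_live c χ with e | e <;> rw [e]
    · simp
    · rw [one_mul, mul_one]; exact (key χ e).1
  · refine (le_iff hE.1 he.1 hE.2 he.2).2 fun χ => ?_
    rw [hev]
    rcases hc.ev_live c χ with e | e <;> rw [e]
    · simp
    · rw [one_mul]; exact (key χ e).2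

end valid

section row

include hz

lemma p_mul_cancel (c : Fin P.r) (b : Op H) : (z.side y c).p * (z.a c * b) = b := by
  rw [← mul_assoc]
  show Ring.inverse (z.a c) * z.a c * b = b
  rw [inverse_mul (St.a_isUnit hz.toCore c), one_mul]

/-- The first variation of the potential is the first variation in the weight. -/
lemma row_eq (b : Op H) : (z.side y c).row b = (z.side y c).first (z.a c * b) := by
  have e : ∀ q : Op H, q * ((z.side y c).p * (z.side y c).p) * (z.a c * b) =
      q * (z.side y c).p * b := fun q => by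
    rw [← mul_assoc q, mul_assoc (q * (z.side y c).p), hz.p_mul_cancel]
  simp only [Side.row, Side.first, e]
  rfl

include hB hP hy

/-- The first variation of a colour is self-adjoint and lives on active points. -/
lemma row_props {b : Op H} (hb : Asa S b) : Asa S ((z.side y c).row b) ∧
    z.act * (z.side y c).row b = (z.side y c).row b := by
  refine ⟨?_, ?_⟩
  · rw [hz.row_eq]
    exact hz.first_asa hB hP hy (Asa.mul ⟨hz.a_mem c, hz.a_sa c⟩ hb)
  · rw [Side.row, ← mul_assoc]
    show z.act * z.live c * _ = _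
    rw [hz.live_act]
    rfl

/-- The first variation of a colour as a map. -/
lemma rowMap : ∃ R : KMap S, ∀ b ∈ S.A, R.apply b = (z.side y c).row b := by
  set d := z.side y c with hd
  have hGm : ∀ s, d.G s ∈ S.M := fun s => hz.toCore.G_mem hy c s
  have he : d.e ∈ S.A := hz.live_mem c
  have ha : d.a ∈ S.A := hz.a_mem c
  have hp : d.p ∈ S.A := St.p_mem hz.toCore
  have hpot : d.pot ∈ S.A := St.pot_mem hz.toCore
  have hpot' : d.pot' ∈ S.A := (hz.pot'_asa (y := y) (c := c)).1
  have hfz : d.fz ∈ S.A := (hz.fz_asa (c := c) hB hP hy).1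
  have hgi : ∀ s, d.gi s ∈ S.A := fun s => (hz.gi_asa (c := c) (σ := s) hB hP hy).1
  set X0 := -(d.e * (d.fz * d.pot' * d.p)) - (2 : ℝ) • (d.e * d.pot * d.a) with hX0
  have hX0m : X0 ∈ S.A := sub_mem (neg_mem (mul_mem he (mul_mem (mul_mem hfz hpot') hp)))
    (smul_real_mem _ (mul_mem (mul_mem he hpot) ha))
  set q := fun s => d.e * d.pot * (d.gi s * d.gi s)
  have hq : ∀ s, q s ∈ S.A := fun s => mul_mem (mul_mem he hpot) (mul_mem (hgi s) (hgi s))
  refine ⟨⟨[(X0, 1), (q false * d.G false * d.a, d.G false), (q true * d.G true * d.a, d.G true)],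
    ?_⟩, fun b hb => ?_⟩
  · intro t ht
    simp only [List.mem_cons, List.not_mem_nil, or_false] at ht
    rcases ht with rfl | rfl | rfl
    · exact ⟨S.le _ hX0m, one_mem _⟩
    · exact ⟨mul_mem (mul_mem (S.le _ (hq _)) (hGm _)) (S.le _ ha), hGm _⟩
    · exact ⟨mul_mem (mul_mem (S.le _ (hq _)) (hGm _)) (S.le _ ha), hGm _⟩
  have e1 : S.E (X0 * b * 1) = X0 * b := by rw [mul_one, hB.E_self _ (mul_mem hX0m hb)]
  have e2 : ∀ s, S.E (q s * d.G s * d.a * b * d.G s) = q s * S.E (d.G s * (d.a * b) * d.G s) :=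
    fun s => by
      rw [← (hB.E_mul (q s) (hq s) _
        (mul_mem (mul_mem (hGm s) (mul_mem (S.le _ ha) (S.le _ hb))) (hGm s))).1]
      simp only [mul_assoc]
  simp only [KMap.apply, List.map_cons, List.map_nil, List.sum_cons, List.sum_nil, add_zero, e1, e2]
  simp only [X0, q, Side.row, Side.L, two_smul, sub_mul, add_mul, neg_mul, mul_add, mul_sub,
    mul_neg, mul_assoc]
  abel

end row

section mu

include hB hP hy hz

/-- The drift of the weight. -/
lemma mu_facts {D : Op H} (hD : Asa S D) (hD0 : 0 ≤ D) (hD1 : D ≤ z.live c) :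
    Asa S ((z.side y c).mu D) ∧ z.live c * (z.side y c).mu D = (z.side y c).mu D ∧
      ‖(z.side y c).mu D‖ ≤ P.lamMax ^ 2 / P.tau ∧
      ∀ (σ : Bool) (χ : S.Chi), S.ev χ D * S.ev χ (z.a c) ^ 2 * S.ev χ ((z.side y c).g σ) ≤
        S.ev χ ((z.side y c).mu D) := by
  have hc := hz.toCore
  have he : Asa S (z.live c) := hz.e_asa (y := y) (c := c)
  have ha : Asa S (z.a c) := ⟨hz.a_mem c, hz.a_sa c⟩
  have hg := fun s => hz.g_asa (c := c) (σ := s) hB hP hy
  have hp := hz.p_asa (y := y) (c := c)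
  have hmx : Asa S (opMax ((z.side y c).g false) ((z.side y c).g true)) :=
    ⟨S.opMax_mem_A (hg false).1 (hg true).1, opMax_isSelfAdjoint (hg false).2 (hg true).2⟩
  have hmx2 : Asa S (opMax (opMax ((z.side y c).g false) ((z.side y c).g true)) (z.side y c).p) :=
    ⟨S.opMax_mem_A hmx.1 hp.1, opMax_isSelfAdjoint hmx.2 hp.2⟩
  have hmu : Asa S ((z.side y c).mu D) := (hD.mul (ha.mul ha)).mul hmx2
  have hev : ∀ χ : S.Chi, S.ev χ ((z.side y c).mu D) = S.ev χ D * S.ev χ (z.a c) ^ 2 *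
      max (max (S.ev χ ((z.side y c).g false)) (S.ev χ ((z.side y c).g true)))
        (S.ev χ (z.a c))⁻¹ := fun χ => by
    rw [Side.mu]
    show S.ev χ (D * (z.a c * z.a c) *
      opMax (opMax ((z.side y c).g false) ((z.side y c).g true)) (z.side y c).p) = _
    rw [Asa.ev_mul (hD.mul (ha.mul ha)) hmx2, ev_opMax hmx.1 hp.1 hmx.2 hp.2,
      ev_opMax (hg false).1 (hg true).1 (hg false).2 (hg true).2, St.ev_p hc]
    rw [Asa.ev_mul hD (ha.mul ha), Asa.ev_mul ha ha, sq]
  have hDχ : ∀ χ : S.Chi, 0 ≤ S.ev χ D ∧ S.ev χ D ≤ S.ev χ (z.live c) := fun χ =>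
    ⟨ev_nonneg hD.1 hD0, ev_le hD.1 he.1 hD.2 hD1⟩
  refine ⟨hmu, ?_, ?_, fun σ χ => ?_⟩
  · refine (ext_iff_ev (he.mul hmu).1 hmu.1 (he.mul hmu).2 hmu.2).2 fun χ => ?_
    rw [Asa.ev_mul he hmu]
    rcases hc.ev_live c χ with e | e
    · have : S.ev χ D = 0 := le_antisymm (e ▸ (hDχ χ).2) (hDχ χ).1
      rw [hev, e, this]; ring
    · rw [e, one_mul]
  · refine norm_le_of_ev hmu.1 hmu.2 (by have := hP.tau_pos; positivity) fun χ => ?_
    have ht := hP.tau_pos
    rw [hev]
    rcases hc.ev_live c χ with e | e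
    · have : S.ev χ D = 0 := le_antisymm (e ▸ (hDχ χ).2) (hDχ χ).1
      rw [this]; simp only [zero_mul, abs_zero]; positivity
    · obtain ⟨h1, h2⟩ := hz.live_a c χ e
      obtain ⟨g0, g1, -⟩ := St.ev_g hB hc hy ht (hz.K_lo c false) χ
      obtain ⟨g0', g1', -⟩ := St.ev_g hB hc hy ht (hz.K_lo c true) χ
      have hi : (S.ev χ (z.a c))⁻¹ ≤ P.tau⁻¹ :=
        inv_anti₀ ht (by linarith [hP.tau_le])
      set M := max (max (S.ev χ ((z.side y c).g false)) (S.ev χ ((z.side y c).g true)))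
        (S.ev χ (z.a c))⁻¹
      have hM0 : 0 ≤ M := le_trans g0.le ((le_max_left _ _).trans (le_max_left _ _))
      have hM1 : M ≤ P.tau⁻¹ := max_le (max_le g1 g1') hi
      have hl : S.ev χ (z.a c) ≤ P.lamMax := by rw [Par.lamMax]; linarith
      have hd1 : S.ev χ D ≤ 1 := e ▸ (hDχ χ).2
      rw [abs_of_nonneg (mul_nonneg (mul_nonneg (hDχ χ).1 (sq_nonneg _)) hM0), div_eq_mul_inv]
      refine mul_le_mul ?_ hM1 hM0 (sq_nonneg _)
      calc S.ev χ D * S.ev χ (z.a c) ^ 2 ≤ 1 * P.lamMax ^ 2 :=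
            mul_le_mul hd1 (pow_le_pow_left₀ (by linarith) hl 2) (sq_nonneg _) zero_le_one
        _ = _ := one_mul _
  · rw [hev]
    refine mul_le_mul_of_nonneg_left ?_ (mul_nonneg (hDχ χ).1 (sq_nonneg _))
    refine le_trans ?_ (le_max_left _ _)
    cases σ
    · exact le_max_left _ _
    · exact le_max_right _ _

/-- The second variation splits into the drift and the noise. -/
lemma second_eq {D : Op H} (hD : Asa S D) {n : ℕ} {f : Fin n → Op H} (hf : ∀ j, Asa S (f j)) :
    (z.side y c).second D f =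
      (z.side y c).first ((z.side y c).mu D) + ∑ j, (z.side y c).quad (z.a c * f j) := by
  set d := z.side y c with hd
  have ha : Asa S (z.a c) := ⟨hz.a_mem c, hz.a_sa c⟩
  have hp : Asa S d.p := hz.p_asa
  have hpm : ∀ b : Op H, d.p * (z.a c * b) = b := hz.p_mul_cancel c
  have hmu : d.mu D ∈ S.A :=
    mul_mem (mul_mem hD.1 (mul_mem ha.1 ha.1)) (S.opMax_mem_A (S.opMax_mem_A
      (hz.g_asa (c := c) (σ := false) hB hP hy).1 (hz.g_asa (c := c) (σ := true) hB hP hy).1) hp.1)
  have e0 : ∀ j, (z.a c * f j) * (z.a c * f j) = z.a c * (z.a c * (f j * f j)) := fun j => by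
    rw [show (z.a c * f j) * (z.a c * f j) = z.a c * (f j * z.a c) * f j by noncomm_ring,
      S.comm _ (hf j).1 _ ha.1]
    noncomm_ring
  have e1 : d.mu D * (d.p * d.p) = d.p * d.p * d.mu D :=
    S.comm _ hmu _ (mul_mem hp.1 hp.1)
  have hda : d.a = z.a c := rfl
  simp only [Side.second, Side.first, Side.quad, Side.xi2, Side.xiQuad, hda, e0, e1]
  simp only [Side.L, mul_add, mul_sub, mul_neg, add_mul, Finset.mul_sum, Finset.smul_sum,
    Finset.sum_add_distrib, Finset.sum_sub_distrib, mul_smul_comm, smul_mul_assoc, mul_assoc, hpm]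
  abel

/-- The resolvent term as a form. -/
lemma gamForm (σ : Bool) : ∃ Φ : QForm S,
    (∀ b ∈ S.A, 0 ≤ Φ.eval b) ∧
    (∀ b, Asa S b → z.live c * b = b → Φ.eval b =
      S.tr (z.sup c * (z.G y c σ * (z.a c * b) * z.G y c σ * (z.a c * b) * z.G y c σ))) ∧
    ∀ D, Asa S D → 0 ≤ D → D ≤ z.live c → ∀ ρ > (0 : ℝ), ∃ P₀ : Part S,
      ∀ Q : Part S, Q.Refines P₀ → ∑ i, Φ.eval (CFC.sqrt D * Q.p i) ≤
        S.tr (z.sup c * (z.G y c σ * (z.side y c).mu D * z.G y c σ)) + ρ := by
  have hc := hz.toCore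
  set G := z.G y c σ with hGdef
  set a := z.a c
  set e := z.sup c
  have hG : G ∈ S.M := hc.G_mem hy c σ
  have hG0 : 0 ≤ G := hz.G_nonneg hP c σ
  have hGs : IsSelfAdjoint G := hz.G_sa hP c σ
  have haA : a ∈ S.A := hz.a_mem c
  have ham : a ∈ S.M := S.le _ haA
  have has : IsSelfAdjoint a := hz.a_sa c
  have hem : e ∈ S.M := hc.sup_memM c
  have hY : G * e * G ∈ S.M := mul_mem (mul_mem hG hem) hG
  have hY0 : 0 ≤ G * e * G := sandwich_nonneg (hc.sup_proj c).nonneg hGs
  have hYs : IsSelfAdjoint (G * e * G) := IsSelfAdjoint.of_nonneg hY0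
  set X := a * (G * e * G) * a with hX
  have hXm : X ∈ S.M := mul_mem (mul_mem ham hY) ham
  have hX0 : 0 ≤ X := sandwich_nonneg hY0 has
  let Φ : QForm S :=
    { simple := [(X, G)], double := []
      simple_mem := fun t ht => by
        simp only [List.mem_cons, List.not_mem_nil, or_false] at ht
        subst ht; exact ⟨hXm, hG⟩
      double_mem := fun t ht => absurd ht List.not_mem_nil }
  have heval : ∀ b, Φ.eval b = S.tr (X * star b * G * b) := fun b => by simp [Φ, QForm.eval]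
  refine ⟨Φ, fun b hb => ?_, fun b hb hlb => ?_, fun D hD hD0 hD1 ρ hρ => ?_⟩
  · have hbM := S.le b hb
    rw [heval, S.tr_comm (mul_mem (mul_mem hXm (star_mem hbM)) hG) hbM,
      show b * (X * star b * G) = b * X * star b * G by noncomm_ring]
    refine tr_mul_nonneg (mul_mem (mul_mem hbM hXm) (star_mem hbM)) hG ?_ hG0
    simpa using star_left_conjugate_nonneg hX0 (star b)
  · have hbM := hb.memM
    rw [heval, hb.2.star_eq, S.tr_comm hem (mul_mem (mul_mem (mul_mem (mul_mem hG (mul_mem ham hbM))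
      hG) (mul_mem ham hbM)) hG), hX]
    have hw : G * (a * b) * G * (a * b) ∈ S.M :=
      mul_mem (mul_mem (mul_mem hG (mul_mem ham hbM)) hG) (mul_mem ham hbM)
    calc S.tr (a * (G * e * G) * a * b * G * b)
        = S.tr ((G * e * G) * a * b * G * b * a) := by
          rw [show a * (G * e * G) * a * b * G * b = a * ((G * e * G) * a * b * G * b) by
            noncomm_ring]
          exact S.tr_comm ham (mul_mem (mul_mem (mul_mem (mul_mem hY ham) hbM) hG) hbM)
      _ = S.tr ((G * e) * (G * (a * b) * G * (a * b))) := by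
          rw [mul_assoc _ b a, S.comm b hb.1 a haA]
          simp only [mul_assoc]
      _ = S.tr ((G * (a * b) * G * (a * b)) * (G * e)) := S.tr_comm (mul_mem hG hem) hw
      _ = _ := by simp only [mul_assoc]
  · set s := CFC.sqrt D
    have hs : s ∈ S.A := S.sqrt_mem_A hD.1
    have hss : IsSelfAdjoint s := (CFC.sqrt_nonneg D).isSelfAdjoint
    have hsM := S.le s hs
    set Z := s * X * s with hZ
    have hZm : Z ∈ S.M := mul_mem (mul_mem hsM hXm) hsM
    have hterm : ∀ (Q : Part S) (i : Fin Q.n),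
        Φ.eval (s * Q.p i) = S.tr (Z * (Q.p i * G * Q.p i)) := fun Q i => by
      have hp := Q.mem i
      have hpM := S.le _ hp
      rw [heval, star_mul, (Q.proj i).isSelfAdjoint.star_eq, hss.star_eq,
        S.comm _ hp _ hs,
        show X * (s * Q.p i) * G * (s * Q.p i) = X * s * (Q.p i * G * (s * Q.p i)) by noncomm_ring,
        S.comm _ hs _ hp,
        show X * s * (Q.p i * G * (Q.p i * s)) = X * s * (Q.p i * G * Q.p i) * s by noncomm_ring,
        S.tr_comm (mul_mem (mul_mem hXm hsM) (mul_mem (mul_mem hpM hG) hpM)) hsM, hZ]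
      simp only [mul_assoc]
    set η := ρ / (‖Z‖ + 1) with hη
    have hη0 : 0 < η := div_pos hρ (by positivity)
    obtain ⟨P₀, hP₀⟩ := hB.pinch_tendsto G hG (η ^ 2) (pow_pos hη0 2)
    refine ⟨P₀, fun Q hQ => ?_⟩
    simp only [hterm]
    rw [← S.tr_sum, ← Finset.mul_sum]
    set Δ := Q.pinch G - S.E G with hΔdef
    have hΔ := hP₀ Q hQ
    rw [show ∑ i, Q.p i * G * Q.p i = S.E G + Δ by rw [hΔdef, Part.pinch]; abel, mul_add, S.tr_add]
    have h1 : S.tr (Z * Δ) ≤ ρ := by
      refine (Dr.tr_mul_le Z Δ hη0).trans ?_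
      have h2 : S.tr (star Δ * Δ) / (2 * η) ≤ η / 2 := by
        rw [div_le_iff₀ (by linarith)]
        calc S.tr (star Δ * Δ) ≤ η ^ 2 := hΔ
          _ = η / 2 * (2 * η) := by ring
      calc ‖Z‖ * (η / 2 + S.tr (star Δ * Δ) / (2 * η))
          ≤ ‖Z‖ * η := mul_le_mul_of_nonneg_left (by linarith) (norm_nonneg Z)
        _ ≤ (‖Z‖ + 1) * η := by nlinarith
        _ = ρ := by rw [hη]; field_simp
    refine add_le_add ?_ h1
    have hgA := hB.E_mem G hG
    have hgM := S.le _ hgA
    set W := S.E (G * e * G) with hW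
    have hWa : Asa S W := Asa.of_E hB hY hYs
    obtain ⟨hmu, -, -, hmuge⟩ := hz.mu_facts hB hP hy hD hD0 hD1
    have ha' : Asa S a := ⟨haA, has⟩
    have hg' : Asa S (S.E G) := hz.g_asa (c := c) (σ := σ) hB hP hy
    have haDg : Asa S (a * a * D * S.E G) := ((ha'.mul ha').mul hD).mul hg'
    have key : S.tr (Z * S.E G) = S.tr (a * a * D * S.E G * W) := by
      rw [hW, tr_mul_E hB hY haDg.1, hZ,
        show s * X * s * S.E G = s * (X * (s * S.E G)) by noncomm_ring,
        S.tr_comm hsM (mul_mem hXm (mul_mem hsM hgM)),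
        show X * (s * S.E G) * s = X * (s * (S.E G * s)) by noncomm_ring,
        S.comm _ hgA _ hs, ← mul_assoc s s, CFC.sqrt_mul_sqrt_self D hD0, hX,
        show a * (G * e * G) * a * (D * S.E G) = a * ((G * e * G) * (a * (D * S.E G))) by
          noncomm_ring,
        S.tr_comm ham (mul_mem hY (mul_mem ham (mul_mem (S.le _ hD.1) hgM))),
        show G * e * G * (a * (D * S.E G)) * a = G * e * G * (a * (D * S.E G) * a) by noncomm_ring,
        S.tr_comm hY (mul_mem (mul_mem ham (mul_mem (S.le _ hD.1) hgM)) ham)]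
      congr 1
      rw [mul_assoc a (D * S.E G) a, S.comm (D * S.E G) (mul_mem hD.1 hgA) a haA]
      noncomm_ring
    have hmono : S.tr (a * a * D * S.E G * W) ≤ S.tr ((z.side y c).mu D * W) := by
      refine S.tr_mono ((le_iff (haDg.mul hWa).1 (hmu.mul hWa).1 (haDg.mul hWa).2
        (hmu.mul hWa).2).2 fun χ => ?_)
      rw [Asa.ev_mul haDg hWa, Asa.ev_mul hmu hWa]
      refine mul_le_mul_of_nonneg_right ?_ (ev_nonneg hWa.1 (hB.E_nonneg _ hY hY0))
      rw [Asa.ev_mul ((ha'.mul ha').mul hD) hg', Asa.ev_mul (ha'.mul ha') hD, Asa.ev_mul ha' ha']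
      have := hmuge σ χ
      calc S.ev χ a * S.ev χ a * S.ev χ D * S.ev χ (S.E G)
          = S.ev χ D * S.ev χ a ^ 2 * S.ev χ ((z.side y c).g σ) := by
            show _ = _ * S.ev χ (S.E G)
            ring
        _ ≤ _ := this
    have fin : S.tr ((z.side y c).mu D * W) = S.tr (e * (G * (z.side y c).mu D * G)) := by
      rw [hW, tr_mul_E hB hY hmu.1,
        show (z.side y c).mu D * (G * e * G) = ((z.side y c).mu D * G) * (e * G) by noncomm_ring,
        S.tr_comm (mul_mem hmu.memM hG) (mul_mem hem hG)]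
      simp only [mul_assoc]
    linarith

end mu

end St.Strict

end Vale.Agent.P078.Tr.Iter
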