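import Vale.Agent.P078.Tr.Iter.Step.Noise
import Vale.Agent.P078.Tr.Iter.Step.Inputs

/-!
# Step: some sign vector lowers the objective by a fixed amount
-/

open scoped ComplexOrder InnerProductSpace

noncomputable section

namespace Vale.Agent.P078.Tr.Iter

universe u

variable {H : Type u} [NormedAddCommGroup H] [InnerProductSpace ℂ H] [CompleteSpace H]
  {S : Tracial H}

open Tracial

/-- The error coefficient of a step, with `C` the constant of the expansion. -/
def Par.errStep (P : Par) (C : ℝ) : ℝ :=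
  2 * P.kap ^ 2 * (648 * (P.r : ℝ) ^ 2 * P.lamMax ^ 6 * P.cN) +
    P.r * (26 * (P.kap + P.lam2) * P.cQuad * P.cN * P.lamMax ^ 2) +
    P.lam1 * (2 * P.r * (26 * P.tau⁻¹ ^ 3 * P.lamMax ^ 2)) + P.errObj C

lemma Par.errStep_nonneg {P : Par} (hP : P.Ok) {C : ℝ} (hC : 0 ≤ C) : 0 ≤ P.errStep C := by
  have := P.err1_nonneg hP hC
  have := P.err2_nonneg hP
  have := P.dMax_pos hP
  have := P.cN_pos hP
  have := P.cQuad_nonneg hP
  have := P.one_le_lamMax hP
  have := hP.tau_pos
  have := hP.kap_pos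
  have := hP.lam1_pos
  have := hP.lam2_pos
  unfold Par.errStep Par.errObj
  positivity

variable {P : Par} {y : Op H} {z : St S P.r} {n : ℕ}

namespace St.Strict

variable (hB : Basics S) (hP : P.Ok) (hy : y ∈ S.M) (hyE : S.E y = 0) (hz : z.Strict P y)

include hB hP hy hyE hz

/-- The covariance count turns the drift into a fixed multiple of the active mass. -/
lemma drift_ge {D : Fin P.r → Op H} {ρ : ℝ}
    (hD : ∀ c, Asa S (D c) ∧ 0 ≤ D c ∧ D c ≤ z.live c)
    (hcount : ∑ c, S.tr ((z.live c - D c) * (z.side y c).eps) ≤ 2 * S.tr z.act + ρ) :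
    P.lam2 * P.c0 / 16 * (4 * S.tr z.act - ρ) ≤
      ∑ c, S.tr (z.wt y * ((z.side y c).e *
        (D c * ((z.side y c).p * (z.side y c).p) * (z.side y c).fz))) := by
  have hl : ∀ c, Asa S (z.live c) := fun c => ⟨hz.live_mem c, (hz.live_proj c).isSelfAdjoint⟩
  have hp : ∀ c, Asa S (z.side y c).p := fun c => hz.p_asa
  have hfz : ∀ c, Asa S (z.side y c).fz := fun c => hz.fz_asa hB hP hy
  have heps : ∀ c, Asa S (z.side y c).eps := fun c => hz.eps_asa hB hP hy
  have hact : Asa S z.act := ⟨hz.act_mem, hz.act_proj.isSelfAdjoint⟩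
  have hT : ∀ c, Asa S (z.wt y * ((z.side y c).e *
      (D c * ((z.side y c).p * (z.side y c).p) * (z.side y c).fz))) := fun c =>
    hz.wt_asa.mul (hz.e_asa.mul (((hD c).1.mul ((hp c).mul (hp c))).mul (hfz c)))
  have hN : ∀ c, Asa S ((z.live c - D c) * (z.side y c).eps) := fun c =>
    ((hl c).sub (hD c).1).mul (heps c)
  have hLs : Asa S ((4 : ℝ) • z.act) := hact.smul _
  have key := tr_le_of_ev ((hLs.add (hact.smul 2)).sub (Asa.sum fun c _ => hN c))
    ((Asa.sum fun c _ => hT c).smul (16 / (P.lam2 * P.c0))) fun χ => by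
    rw [Asa.ev_sub (hLs.add (hact.smul 2)) (Asa.sum fun c _ => hN c),
      Asa.ev_add hLs (hact.smul 2), ev_smul _ hact.1, ev_smul _ hact.1,
      ev_sum _ _ fun c _ => (hN c).1, ev_smul _ (Asa.sum (S := S) fun c _ => hT c).1,
      ev_sum _ _ fun c _ => (hT c).1]
    have hd : ∀ c, 0 ≤ S.ev χ (D c) ∧ S.ev χ (D c) ≤ S.ev χ (z.live c) := fun c =>
      ⟨ev_nonneg (hD c).1.1 (hD c).2.1, ev_le (hD c).1.1 (hl c).1 (hD c).1.2 (hD c).2.2⟩
    have hev : ∀ c, S.ev χ ((z.live c - D c) * (z.side y c).eps) =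
        (S.ev χ (z.live c) - S.ev χ (D c)) *
          (S.ev χ (z.live c) * (16 * (S.ev χ (z.side y c).p * S.ev χ (z.side y c).fz))) :=
      fun c => by
        rw [Asa.ev_mul ((hl c).sub (hD c).1) (heps c), Asa.ev_sub (hl c) (hD c).1, Side.eps,
          Asa.ev_mul hz.e_asa (((hp c).mul (hfz c)).smul kK),
          ev_smul _ ((hp c).mul (hfz c)).1, Asa.ev_mul (hp c) (hfz c), kK]
        rfl
    have hevT : ∀ c, S.ev χ (z.wt y * ((z.side y c).e *
        (D c * ((z.side y c).p * (z.side y c).p) * (z.side y c).fz))) =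
        S.ev χ (z.wt y) * (S.ev χ (z.live c) * (S.ev χ (D c) *
          (S.ev χ (z.side y c).p * S.ev χ (z.side y c).p) * S.ev χ (z.side y c).fz)) :=
      fun c => by
        rw [Asa.ev_mul hz.wt_asa (hz.e_asa.mul (((hD c).1.mul ((hp c).mul (hp c))).mul (hfz c))),
          Asa.ev_mul hz.e_asa (((hD c).1.mul ((hp c).mul (hp c))).mul (hfz c)),
          Asa.ev_mul ((hD c).1.mul ((hp c).mul (hp c))) (hfz c),
          Asa.ev_mul (hD c).1 ((hp c).mul (hp c)), Asa.ev_mul (hp c) (hp c)]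
        rfl
    simp only [hev, hevT]
    obtain ⟨hw0, -, hw2⟩ := hz.wt_bounds hP χ
    rcases ev_proj (χ := χ) hz.act_mem hz.act_proj with e | e
    · have h0 : ∀ c, S.ev χ (z.live c) = 0 := fun c => by
        have := congrArg (S.ev χ) (hz.live_act c)
        rwa [Asa.ev_mul hact (hl c), e, zero_mul, eq_comm] at this
      simp [e, h0]
    · have hw := hw2 e
      have hterm : ∀ c, 16 / 1.408 * (S.ev χ (z.live c) *
          (S.ev χ (z.side y c).pot * S.ev χ (z.side y c).fz)) -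
          (S.ev χ (z.live c) - S.ev χ (D c)) *
            (S.ev χ (z.live c) * (16 * (S.ev χ (z.side y c).p * S.ev χ (z.side y c).fz))) ≤
          16 / (P.lam2 * P.c0) * (S.ev χ (z.wt y) * (S.ev χ (z.live c) * (S.ev χ (D c) *
            (S.ev χ (z.side y c).p * S.ev χ (z.side y c).p) * S.ev χ (z.side y c).fz))) := by
        intro c
        rcases hz.toCore.ev_live c χ with e' | e'
        · simp [e']
        obtain ⟨⟨p0, p1, p2⟩, ⟨f0, -⟩, -⟩ := hz.live_coef hB hP hy hyE e'
        have hpe : S.ev χ (z.side y c).pot =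
            S.ev χ (z.side y c).p + kB * (S.ev χ (z.side y c).p * S.ev χ (z.side y c).p) := by
          rw [ev_pot hz.toCore, ev_p hz.toCore]
        have f0' : 0 ≤ S.ev χ (z.side y c).fz := le_trans hP.c0_pos.le f0
        have hd0 := (hd c).1
        rw [e', one_mul, one_mul, one_mul, hpe, kB]
        set p := S.ev χ (z.side y c).p
        set f := S.ev χ (z.side y c).fz
        set d := S.ev χ (D c)
        set w := S.ev χ (z.wt y)
        have a1 : (p + 204 * (p * p)) * f ≤ 1.408 * (p * f) := by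
          have := mul_le_mul_of_nonneg_left p1 p0
          rw [show 1.408 * (p * f) = (1.408 * p) * f by ring]
          refine mul_le_mul_of_nonneg_right ?_ f0'
          norm_num
          linarith
        have a2 : d * (16 * (p * f)) ≤ 16 / (P.lam2 * P.c0) * (w * (d * (p * p) * f)) := by
          have hlc : 0 < P.lam2 * P.c0 := mul_pos hP.lam2_pos hP.c0_pos
          have h1 : P.lam2 * P.c0 ≤ w * p :=
            mul_le_mul hw p2 hP.c0_pos.le (hP.lam2_pos.le.trans hw)
          have h2 := mul_le_mul_of_nonneg_right h1 (show 0 ≤ d * (p * f) by positivity)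
          rw [div_mul_eq_mul_div, le_div_iff₀ hlc]
          linarith
        have a3 : 16 / 1.408 * ((p + 204 * (p * p)) * f) ≤ 16 * (p * f) := by
          have := mul_le_mul_of_nonneg_left a1 (show (0 : ℝ) ≤ 16 / 1.408 by norm_num)
          norm_num at this ⊢
          linarith
        linarith
      have hs := Finset.sum_le_sum fun c (_ : c ∈ Finset.univ) => hterm c
      rw [Finset.sum_sub_distrib, ← Finset.mul_sum, ← Finset.mul_sum] at hs
      have hF := hz.act_F χ e
      rw [ev_F hB hz.toCore hy] at hF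
      have hloss : S.ev χ z.loss ≤ 3 / 1000 := by
        have h1 := hz.loss_le χ
        have h2 : 0 ≤ ∑ c, S.ev χ (z.sup c) :=
          Finset.sum_nonneg fun c _ => (hz.toCore.ev_sup_le c χ).1
        have := hP.r_c0
        nlinarith [mul_nonneg hP.c0_pos.le h2]
      rw [e]
      have h16 := mul_le_mul_of_nonneg_left
        (show 3 / 5 - 3 / 1000 ≤ ∑ c, S.ev χ (z.live c) *
          (S.ev χ (z.side y c).pot * S.ev χ (z.side y c).fz) by linarith)
        (show (0 : ℝ) ≤ 16 / 1.408 by norm_num)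
      norm_num at h16 hs ⊢
      linarith
  rw [S.tr_sub, S.tr_add, S.tr_smul, S.tr_smul, S.tr_sum, S.tr_smul, S.tr_sum] at key
  have hlc : 0 < P.lam2 * P.c0 := mul_pos hP.lam2_pos hP.c0_pos
  rw [div_mul_eq_mul_div, le_div_iff₀ hlc] at key
  have k := mul_le_mul_of_nonneg_right hcount hlc.le
  linarith

variable {t ρ C : ℝ} {f : Fin n → Fin P.r → Op H} {D : Fin P.r → Op H}

/-- The objective averaged over the sign vectors. -/
lemma avg_obj_le (hC : 0 ≤ C) (ht : 0 < t) (ht1 : t ≤ 1)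
    (ht3 : P.kap * (t ^ 4 * P.err3 C) ≤ 1) (ht4 : t ^ 4 * P.dMax ≤ P.tau / 2)
    (hE : ∀ d : Fin P.r → Op H,
      (∀ c, d c ∈ S.A ∧ IsSelfAdjoint (d c) ∧ z.live c * d c = d c ∧ ‖d c‖ ≤ P.tau / 2) →
      (z.bump d).Loose P y ∧
      (∀ (c : Fin P.r) (χ : S.Chi), S.ev χ (z.live c) = 1 →
        |S.ev χ ((z.bump d).side y c).pot * S.ev χ ((z.bump d).side y c).fz -
            S.ev χ (z.side y c).pot * S.ev χ (z.side y c).fz -
            S.ev χ ((z.side y c).first (d c)) - S.ev χ ((z.side y c).quad (d c))| ≤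
          C * ‖d c‖ ^ 3) ∧
      ∀ (c : Fin P.r) (σ : Bool),
        |S.tr (z.sup c * (z.bump d).G y c σ) - S.tr (z.sup c * z.G y c σ) +
            S.tr (z.sup c * (z.G y c σ * d c * z.G y c σ)) -
            S.tr (z.sup c * (z.G y c σ * d c * z.G y c σ * d c * z.G y c σ))| ≤
          C * ‖d c‖ ^ 3)
    (hD : ∀ c, Asa S (D c) ∧ 0 ≤ D c ∧ D c ≤ z.live c) (hf : Fields z f)
    (hres : ∑ j, S.tr ((∑ c, (z.side y c).first (z.a c * f j c)) *
      (∑ c, (z.side y c).first (z.a c * f j c))) ≤ ρ)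
    (hgam : ∀ c σ, ∑ j, S.tr (z.sup c * (z.G y c σ * (z.a c * f j c) * z.G y c σ *
        (z.a c * f j c) * z.G y c σ)) ≤
      S.tr (z.sup c * (z.G y c σ * (z.side y c).mu (D c) * z.G y c σ)) + 2 * ρ) :
    ∃ z' : St S P.r, z'.Loose P y ∧ z'.obj P y - z.obj P y ≤
      -(t ^ 10 * ∑ c, S.tr (z.wt y * (z.side y c).second (D c) fun j => f j c)) +
        t ^ 10 * ((4 * P.kap ^ 2 + 4 * P.r * P.lam1) * ρ) + t ^ 11 * P.errStep C := by
  set m := fun c => (z.side y c).mu (D c) with hmdef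
  have hm : ∀ c, Asa S (m c) ∧ z.live c * m c = m c ∧ ‖m c‖ ≤ P.lamMax ^ 2 * P.tau⁻¹ := fun c => by
    obtain ⟨h1, h2, h3, -⟩ := hz.mu_facts hB hP hy (hD c).1 (hD c).2.1 (hD c).2.2
    exact ⟨h1, h2, by rwa [← div_eq_mul_inv]⟩
  set u := clipped S t f
  have hu := fun s c => clipped_facts hz.toCore hf ht s c
  set d := fun s => stepVec z t (u s) m with hd
  have hEs := fun s => hE (d s) fun c => by
    obtain ⟨-, -, h1, h2, h3⟩ := hz.stepVec_facts hP ht ht1 (hu s) hm c
    exact ⟨h1.1, h1.2, h2, h3.trans ht4⟩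
  set L := fun s : Fin n → Bool => S.tr (z.wt y * z.lin y (u s)) +
    P.lam1 * ∑ c, ∑ σ, S.tr (z.sup c * (z.G y c σ * (z.a c * u s c) * z.G y c σ)) with hL
  set Q := fun s : Fin n → Bool => S.tr (z.wt y * z.snd y (u s) m) with hQ
  set A2 := fun s : Fin n → Bool => S.tr (z.lin y (u s) * z.lin y (u s)) with hA2
  set G2 := fun s : Fin n → Bool => ∑ c, ∑ σ,
    (S.tr (z.sup c * (z.G y c σ * (z.a c * u s c) * z.G y c σ * (z.a c * u s c) * z.G y c σ)) -
      S.tr (z.sup c * (z.G y c σ * m c * z.G y c σ))) with hG2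
  have hone : ∀ s, (z.bump (d s)).obj P y - z.obj P y ≤
      -(t ^ 5 * L s) - t ^ 10 * Q s + 2 * P.kap ^ 2 * t ^ 10 * A2 s + P.lam1 * t ^ 10 * G2 s +
        P.errObj C * t ^ 12 := fun s =>
    hz.obj_bump_le hB hP hy hyE hC ht ht1 ht3 (hu s) hm (hEs s).1 (hEs s).2.1 (hEs s).2.2
  have hodd : ∀ s c, u (fun j => !s j) c = (-1 : ℝ) • u s c := fun s c => by
    rw [neg_one_smul]; exact clipped_not hf ht s c
  have s1 : ∑ s, L s = 0 := sum_odd L fun s => by
    have e1 : z.lin y (u fun j => !s j) = (-1 : ℝ) • z.lin y (u s) := by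
      simp only [St.lin, hodd, Finset.smul_sum, mul_smul_comm]
      exact Finset.sum_congr rfl fun c _ =>
        first_smul hB hy hz.toCore _ (Asa.mul ⟨hz.a_mem c, hz.a_sa c⟩ (hu s c).1).memM
    simp only [hL, e1, hodd, mul_smul_comm, smul_mul_assoc, S.tr_smul, ← Finset.mul_sum]
    ring
  have hN : (0 : ℝ) < 2 ^ n := by positivity
  have hsum1 : ∀ s : Fin n → Bool, Q s = ∑ c, (S.tr (z.wt y * (z.side y c).first (m c)) +
      S.tr (z.wt y * (z.side y c).quad (z.a c * u s c))) := fun s => by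
    simp only [hQ, St.snd, Finset.mul_sum, mul_add, S.tr_sum, S.tr_add]
  have s2 : (2 : ℝ) ^ n * (∑ c, S.tr (z.wt y * (z.side y c).second (D c) fun j => f j c) -
      P.r * (26 * (P.kap + P.lam2) * P.cQuad * P.cN * P.lamMax ^ 2 * t)) ≤ ∑ s, Q s := by
    rw [Finset.sum_congr rfl fun s _ => hsum1 s, Finset.sum_comm, mul_sub, Finset.mul_sum]
    have hcol : ∀ c, (2 : ℝ) ^ n * S.tr (z.wt y * (z.side y c).second (D c) fun j => f j c) -
        2 ^ n * (26 * (P.kap + P.lam2) * P.cQuad * P.cN * P.lamMax ^ 2 * t) ≤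
        ∑ s : Fin n → Bool, (S.tr (z.wt y * (z.side y c).first (m c)) +
          S.tr (z.wt y * (z.side y c).quad (z.a c * u s c))) := fun c => by
      rw [hz.second_eq hB hP hy (hD c).1 (f := fun j => f j c) (fun j => hf.asa j c),
        mul_add, S.tr_add, Finset.mul_sum, S.tr_sum, Finset.sum_add_distrib, Finset.sum_const,
        nsmul_eq_mul, card_signs]
      have := (abs_le.1 (hz.sum_quad_clip (c := c) hB hP hy hyE hf ht ht1)).1
      linarith
    have h := Finset.sum_le_sum fun c (_ : c ∈ Finset.univ) => hcol c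
    rw [Finset.sum_sub_distrib, Finset.sum_const, Finset.card_univ, Fintype.card_fin,
      nsmul_eq_mul] at h
    linarith
  have s3 : ∑ s, A2 s ≤ 2 ^ n * (2 * ρ + 648 * (P.r : ℝ) ^ 2 * P.lamMax ^ 6 * P.cN * t) := by
    refine (hz.sum_lin_sq hB hP hy hyE hf ht).trans (mul_le_mul_of_nonneg_left ?_ hN.le)
    have := P.cN_pos hP
    have : 648 * (P.r : ℝ) ^ 2 * P.lamMax ^ 6 * P.cN * t ^ 2 ≤
        648 * (P.r : ℝ) ^ 2 * P.lamMax ^ 6 * P.cN * t :=
      mul_le_mul_of_nonneg_left (by nlinarith) (by positivity)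
    linarith
  have s4 : ∑ s, G2 s ≤ 2 ^ n * (2 * P.r * (2 * ρ + 26 * P.tau⁻¹ ^ 3 * P.lamMax ^ 2 * t)) := by
    simp only [hG2]
    rw [Finset.sum_comm]
    refine (Finset.sum_le_card_nsmul _ _ (2 * (2 ^ n * (2 * ρ + 26 * P.tau⁻¹ ^ 3 * P.lamMax ^ 2 * t)))
      fun c _ => ?_).trans (le_of_eq ?_)
    · rw [Finset.sum_comm]
      refine (Finset.sum_le_card_nsmul _ _ (2 ^ n * (2 * ρ + 26 * P.tau⁻¹ ^ 3 * P.lamMax ^ 2 * t))
        fun σ _ => ?_).trans (le_of_eq ?_)
      · rw [Finset.sum_sub_distrib, Finset.sum_const, nsmul_eq_mul, card_signs]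
        have h1 := hz.sum_gam_clip (c := c) (σ := σ) hP hy hf ht ht1
        have h2 := mul_le_mul_of_nonneg_left (hgam c σ) hN.le
        linarith
      · rw [Finset.card_univ, Fintype.card_bool, nsmul_eq_mul]; push_cast; rfl
    · rw [Finset.card_univ, Fintype.card_fin, nsmul_eq_mul]; ring
  obtain ⟨s, -, hs⟩ := Finset.exists_le_of_sum_le Finset.univ_nonempty
    (f := fun s => -(t ^ 5 * L s) - t ^ 10 * Q s + 2 * P.kap ^ 2 * t ^ 10 * A2 s +
      P.lam1 * t ^ 10 * G2 s + P.errObj C * t ^ 12)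
    (g := fun _ => -(t ^ 10 * ∑ c, S.tr (z.wt y * (z.side y c).second (D c) fun j => f j c)) +
        t ^ 10 * ((4 * P.kap ^ 2 + 4 * P.r * P.lam1) * ρ) + t ^ 11 * P.errStep C) (by
      simp only [Finset.sum_add_distrib, Finset.sum_sub_distrib, Finset.sum_neg_distrib,
        ← Finset.mul_sum, s1, Finset.sum_const, nsmul_eq_mul, card_signs, mul_zero, neg_zero]
      have t10 : 0 ≤ t ^ 10 := by positivity
      have k2 := mul_le_mul_of_nonneg_left s2 t10
      have k3 := mul_le_mul_of_nonneg_left s3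
        (show 0 ≤ 2 * P.kap ^ 2 * t ^ 10 by positivity)
      have k4 := mul_le_mul_of_nonneg_left s4
        (show 0 ≤ P.lam1 * t ^ 10 by have := hP.lam1_pos; positivity)
      have k5 : (2 : ℝ) ^ n * (P.errObj C * t ^ 12) ≤ 2 ^ n * (P.errObj C * t ^ 11) := by
        refine mul_le_mul_of_nonneg_left (mul_le_mul_of_nonneg_left
          (pow_le_pow_of_le_one ht.le ht1 (by norm_num)) ?_) hN.le
        have := P.err1_nonneg hP hC
        have := P.dMax_pos hP
        have := hP.tau_pos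
        have := hP.kap_pos
        have := hP.lam1_pos
        have := hP.lam2_pos
        unfold Par.errObj; positivity
      rw [Par.errStep]
      linarith)
  exact ⟨z.bump (d s), (hEs s).1, (hone s).trans hs⟩

end St.Strict

end Vale.Agent.P078.Tr.Iter
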