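import Vale.Agent.P078.Tr.Iter.Step.Bump

/-!
# Step: averages over the sign vectors of the clipped noise
-/

open scoped ComplexOrder InnerProductSpace

noncomputable section

namespace Vale.Agent.P078.Tr.Iter

universe u

variable {H : Type u} [NormedAddCommGroup H] [InnerProductSpace ℂ H] [CompleteSpace H]
  {S : Tracial H}

open Tracial

variable {P : Par} {y : Op H} {z : St S P.r} {n : ℕ}

/-- The noise of one colour along a sign vector. -/
def noise (f : Fin n → Fin P.r → Op H) (s : Fin n → Bool) (c : Fin P.r) : Op H :=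
  comb s fun j => f j c

/-- Its truncation. -/
def clipped (S : Tracial H) (t : ℝ) (f : Fin n → Fin P.r → Op H) (s : Fin n → Bool)
    (c : Fin P.r) : Op H :=
  clipA S t (noise f s c)

/-- What the vectors of module Covariance satisfy. -/
structure Fields (z : St S P.r) (f : Fin n → Fin P.r → Op H) : Prop where
  asa : ∀ j c, Asa S (f j c)
  supp : ∀ j c, z.live c * f j c = f j c
  bdd : ∀ c (χ : S.Chi), ∑ j, S.ev χ (f j c) ^ 2 ≤ 2

variable {f : Fin n → Fin P.r → Op H} {t : ℝ} {c : Fin P.r} {σ : Bool}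

lemma ev_noise (hf : Fields z f) (s : Fin n → Bool) (χ : S.Chi) :
    S.ev χ (noise f s c) = ∑ j, sg (s j) * S.ev χ (f j c) := by
  rw [noise, comb, ev_sum _ _ fun j _ => ((hf.asa j c).smul _).1]
  exact Finset.sum_congr rfl fun j _ => ev_smul _ (hf.asa j c).1

lemma noise_asa (hf : Fields z f) (s : Fin n → Bool) (c : Fin P.r) : Asa S (noise f s c) :=
  comb_asa s fun j => hf.asa j c

lemma live_mul_noise (hf : Fields z f) (s : Fin n → Bool) (c : Fin P.r) :
    z.live c * noise f s c = noise f s c := by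
  simp only [noise, mul_comb, hf.supp]

lemma clipped_facts (hz : z.Core P) (hf : Fields z f) (ht : 0 < t) (s : Fin n → Bool)
    (c : Fin P.r) :
    Asa S (clipped S t f s c) ∧ z.live c * clipped S t f s c = clipped S t f s c ∧
      ∀ χ : S.Chi, |S.ev χ (clipped S t f s c)| ≤ 1 / t := by
  have hu : Asa S (clipped S t f s c) := clipA_asa _ _
  have hl : Asa S (z.live c) := ⟨hz.live_mem c, (hz.live_proj c).isSelfAdjoint⟩
  refine ⟨hu, (ext_iff_ev (hl.mul hu).1 hu.1 (hl.mul hu).2 hu.2).2 fun χ => ?_, fun χ => ?_⟩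
  · rw [Asa.ev_mul hl hu]
    rcases hz.ev_live c χ with e | e
    · have h0 := congrArg (S.ev χ) (live_mul_noise hf s c)
      rw [Asa.ev_mul hl (noise_asa hf s c), e, zero_mul] at h0
      rw [e, zero_mul, clipped, ev_clipA, ← h0,
        min_eq_right (one_div_pos.2 ht).le, max_eq_right (neg_nonpos.2 (one_div_pos.2 ht).le)]
    · rw [e, one_mul]
  · rw [clipped, ev_clipA]
    exact (clip_bounds ht _).1

omit [CompleteSpace H] in
lemma noise_not (s : Fin n → Bool) (c : Fin P.r) :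
    noise f (fun j => !s j) c = -noise f s c := comb_not s _

lemma clipped_not (hf : Fields z f) (ht : 0 < t) (s : Fin n → Bool) (c : Fin P.r) :
    clipped S t f (fun j => !s j) c = -clipped S t f s c := by
  rw [clipped, noise_not, clipA_neg t (noise_asa hf s c).1 ht, clipped]

lemma card_signs : ((Finset.univ : Finset (Fin n → Bool)).card : ℝ) = 2 ^ n := by
  simp

/-- A sum of traces is bounded by a bound for the sums at the characters. -/
lemma sum_tr_le {ι : Type*} [Fintype ι] {x : ι → Op H} (hx : ∀ i, Asa S (x i)) {B : ℝ}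
    (h : ∀ χ : S.Chi, ∑ i, S.ev χ (x i) ≤ B) : ∑ i, S.tr (x i) ≤ B := by
  have := tr_le_of_ev (Asa.sum fun i _ => hx i) ((Asa.one (S := S)).smul B) fun χ => by
    rw [ev_sum _ _ fun i _ => (hx i).1, ev_smul _ (one_mem _), ev_one, mul_one]
    exact h χ
  rwa [S.tr_sum, S.tr_smul, tr_one, mul_one] at this

namespace St.Strict

variable (hB : Basics S) (hP : P.Ok) (hy : y ∈ S.M) (hyE : S.E y = 0) (hz : z.Strict P y)

section moments

variable (hf : Fields z f) (ht : 0 < t)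

include hP hz hf

omit hP hf in
lemma live_a_sq (χ : S.Chi) {x : Op H} (hx : Asa S x) (hlx : z.live c * x = x) :
    S.ev χ (z.a c * x) ^ 2 ≤ P.lamMax ^ 2 * S.ev χ x ^ 2 := by
  rw [Asa.ev_mul ⟨hz.a_mem c, hz.a_sa c⟩ hx, mul_pow]
  rcases hz.toCore.ev_live c χ with e | e
  · have h0 := congrArg (S.ev χ) hlx
    rw [Asa.ev_mul ⟨hz.live_mem c, (hz.live_proj c).isSelfAdjoint⟩ hx, e, zero_mul] at h0
    rw [← h0, zero_pow two_ne_zero, mul_zero, mul_zero]
  · refine mul_le_mul_of_nonneg_right (pow_le_pow_left₀ (by linarith [(hz.live_a c χ e).1]) ?_ 2)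
      (sq_nonneg _)
    have := (hz.live_a c χ e).2
    rw [Par.lamMax]; linarith

omit hP in
lemma sum_noise_sq :
    ∑ s : Fin n → Bool, S.tr ((z.a c * noise f s c) * (z.a c * noise f s c)) ≤
      2 ^ n * (2 * P.lamMax ^ 2) := by
  have ha : ∀ s, Asa S (z.a c * noise f s c) := fun s =>
    Asa.mul ⟨hz.a_mem c, hz.a_sa c⟩ (noise_asa hf s c)
  refine sum_tr_le (fun s => (ha s).mul (ha s)) fun χ => ?_
  refine (Finset.sum_le_sum (g := fun s => P.lamMax ^ 2 * S.ev χ (noise f s c) ^ 2)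
    fun s _ => ?_).trans ?_
  · rw [Asa.ev_mul (ha s) (ha s), ← sq]
    exact hz.live_a_sq χ (noise_asa hf s c) (live_mul_noise hf s c)
  · rw [← Finset.mul_sum]
    simp only [ev_noise hf, sum_sq]
    have h := mul_le_mul_of_nonneg_left (mul_le_mul_of_nonneg_left (hf.bdd c χ)
      (show (0 : ℝ) ≤ 2 ^ n by positivity)) (sq_nonneg P.lamMax)
    linarith

omit hP in
include ht in
lemma sum_cutoff_sq :
    ∑ s : Fin n → Bool, S.tr ((z.a c * noise f s c - z.a c * clipped S t f s c) *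
        (z.a c * noise f s c - z.a c * clipped S t f s c)) ≤
      2 ^ n * (12 * P.lamMax ^ 2 * t ^ 2) := by
  have ha : ∀ s, Asa S (z.a c * noise f s c - z.a c * clipped S t f s c) := fun s =>
    (Asa.mul ⟨hz.a_mem c, hz.a_sa c⟩ (noise_asa hf s c)).sub
      (Asa.mul ⟨hz.a_mem c, hz.a_sa c⟩ (clipA_asa _ _))
  refine sum_tr_le (fun s => (ha s).mul (ha s)) fun χ => ?_
  refine (Finset.sum_le_sum (g := fun s => P.lamMax ^ 2 * (t ^ 2 * S.ev χ (noise f s c) ^ 4))
    fun s _ => ?_).trans ?_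
  · have hu := clipped_facts hz.toCore hf ht s c
    have hx := (noise_asa hf s c).sub hu.1
    rw [Asa.ev_mul (ha s) (ha s), ← sq, ← mul_sub]
    refine (hz.live_a_sq χ hx (by rw [mul_sub, live_mul_noise hf s c, hu.2.1])).trans ?_
    refine mul_le_mul_of_nonneg_left ?_ (sq_nonneg _)
    rw [Asa.ev_sub (noise_asa hf s c) hu.1, clipped, ev_clipA]
    exact (clip_bounds ht _).2
  · rw [← Finset.mul_sum, ← Finset.mul_sum]
    simp only [ev_noise hf]
    have h0 : 0 ≤ ∑ j, S.ev χ (f j c) ^ 2 := Finset.sum_nonneg fun j _ => sq_nonneg _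
    have h := sum_pow_four fun j => S.ev χ (f j c)
    have h2 := pow_le_pow_left₀ h0 (hf.bdd c χ) 2
    have h3 := h.trans (mul_le_mul_of_nonneg_left (mul_le_mul_of_nonneg_left h2
      (by norm_num : (0 : ℝ) ≤ 3)) (by positivity))
    refine (mul_le_mul_of_nonneg_left (mul_le_mul_of_nonneg_left h3 (sq_nonneg t))
      (sq_nonneg P.lamMax)).trans (le_of_eq (by ring))

end moments

include hB hP hy hz

lemma tr_maj_le {b : Op H} (hb : Asa S b) : S.tr (z.maj y c b) ≤ P.cN * S.tr (b * b) := by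
  have hG := fun σ => hz.toCore.G_mem hy c σ
  have h1 := fun σ => tr_E_GuGuG_le hB (hG σ) (hz.G_nonneg hP c σ) (hz.norm_G_le hP c σ)
    hb.memM hb.2
  have h2 := fun σ => tr_W_sq_le hB (hG σ) (hz.G_nonneg hP c σ) (hz.norm_G_le hP c σ)
    hb.memM hb.2
  rw [St.maj, S.tr_add, S.tr_sum, Fintype.sum_bool, S.tr_add, S.tr_add, Par.cN]
  linarith [h1 true, h1 false, h2 true, h2 false]

lemma ev_maj_nonneg {b : Op H} (hb : Asa S b) (χ : S.Chi) : 0 ≤ S.ev χ (z.maj y c b) := by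
  rw [hz.ev_maj hB hP hy hb]
  exact add_nonneg (sq_nonneg _) (Finset.sum_nonneg fun σ _ =>
    add_nonneg (hz.ev_W2_nonneg hB hP hy hb) (sq_nonneg _))

include hyE

lemma first_sq_le {b : Op H} (hb : Asa S b) (χ : S.Chi) :
    S.ev χ ((z.side y c).first b) ^ 2 ≤ 27 * P.lamMax ^ 4 * S.ev χ (z.maj y c b) := by
  have hM := hz.ev_maj (c := c) (χ := χ) hB hP hy hb
  rw [hz.ev_first hB hP hy hb]
  rcases hz.toCore.ev_live c χ with e | e
  · rw [e, zero_mul, zero_pow two_ne_zero]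
    exact mul_nonneg (by positivity) (hz.ev_maj_nonneg hB hP hy hb χ)
  obtain ⟨⟨p0, p1, -⟩, ⟨f0, f1⟩, hg⟩ := hz.live_coef hB hP hy hyE e
  obtain ⟨po0, po1, -⟩ := live_bounds hB hz.toCore hy hyE hP.tau_pos (hz.K_lo c) e
    (by linarith [(hz.live_a c χ e).1])
  rw [e, one_mul, hz.ev_L hB hP hy hb, hz.ev_L hB hP hy hb]
  have hf0 : 0 ≤ S.ev χ (z.side y c).fz := le_trans hP.c0_pos.le f0
  have hk : 0 ≤ S.ev χ (z.side y c).fz * S.ev χ (z.side y c).pot' * S.ev χ (z.side y c).p ^ 2 ∧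
      S.ev χ (z.side y c).fz * S.ev χ (z.side y c).pot' * S.ev χ (z.side y c).p ^ 2 ≤ 1 := by
    rw [hz.ev_pot', kB]
    refine ⟨by positivity, ?_⟩
    have i : S.ev χ (z.side y c).p ^ 2 ≤ 1 / 250000 :=
      (pow_le_pow_left₀ p0 p1 2).trans (by norm_num)
    have j : S.ev χ (z.side y c).fz * (1 + 2 * 204 * S.ev χ (z.side y c).p) ≤ 51 / 50 * 2 :=
      mul_le_mul f1 (by linarith) (by positivity) (by norm_num)
    exact (mul_le_mul j i (sq_nonneg _) (by norm_num)).trans (by norm_num)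
  set x := S.ev χ b
  set k := S.ev χ (z.side y c).fz * S.ev χ (z.side y c).pot' * S.ev χ (z.side y c).p ^ 2
  set po := S.ev χ (z.side y c).pot
  set W0 := S.ev χ (S.E (z.G y c false * b * z.G y c false))
  set W1 := S.ev χ (S.E (z.G y c true * b * z.G y c true))
  set g0 := S.ev χ ((z.side y c).gi false)
  set g1 := S.ev χ ((z.side y c).gi true)
  have hl := P.one_le_lamMax hP
  have q0 : g0 ^ 4 ≤ P.lamMax ^ 4 := pow_le_pow_left₀ (hg false).1 (hg false).2 4
  have q1 : g1 ^ 4 ≤ P.lamMax ^ 4 := pow_le_pow_left₀ (hg true).1 (hg true).2 4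
  have e3 : -(k * x) - po * (x - g0 ^ 2 * W0 + (x - g1 ^ 2 * W1)) =
      -(k + 2 * po) * x + po * g0 ^ 2 * W0 + po * g1 ^ 2 * W1 := by ring
  rw [e3]
  have i1 : (-(k + 2 * po) * x + po * g0 ^ 2 * W0 + po * g1 ^ 2 * W1) ^ 2 ≤
      3 * ((k + 2 * po) ^ 2 * x ^ 2) + 3 * (po ^ 2 * g0 ^ 4 * W0 ^ 2) +
        3 * (po ^ 2 * g1 ^ 4 * W1 ^ 2) := by
    nlinarith [sq_nonneg (-(k + 2 * po) * x - po * g0 ^ 2 * W0),
      sq_nonneg (-(k + 2 * po) * x - po * g1 ^ 2 * W1),
      sq_nonneg (po * g0 ^ 2 * W0 - po * g1 ^ 2 * W1)]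
  have hl4 : 1 ≤ P.lamMax ^ 4 := one_le_pow₀ hl
  have a1 : (k + 2 * po) ^ 2 ≤ 9 * P.lamMax ^ 4 := by nlinarith [hk.1, hk.2]
  have hpo : po ^ 2 ≤ 1 := by nlinarith
  have a2 : po ^ 2 * g0 ^ 4 ≤ 1 * P.lamMax ^ 4 :=
    mul_le_mul hpo q0 (pow_nonneg (hg false).1 4) zero_le_one
  have a3 : po ^ 2 * g1 ^ 4 ≤ 1 * P.lamMax ^ 4 :=
    mul_le_mul hpo q1 (pow_nonneg (hg true).1 4) zero_le_one
  have b1 := mul_le_mul_of_nonneg_right a1 (sq_nonneg x)
  have b2 := mul_le_mul_of_nonneg_right a2 (sq_nonneg W0)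
  have b3 := mul_le_mul_of_nonneg_right a3 (sq_nonneg W1)
  have n0 := hz.ev_W2_nonneg (c := c) (σ := false) (χ := χ) hB hP hy hb
  have n1 := hz.ev_W2_nonneg (c := c) (σ := true) (χ := χ) hB hP hy hb
  rw [Fintype.sum_bool] at hM
  have hM' : 0 ≤ P.lamMax ^ 4 := by positivity
  have := mul_le_mul_of_nonneg_left
    (show x ^ 2 + W0 ^ 2 + W1 ^ 2 ≤ S.ev χ (z.maj y c b) by rw [hM]; linarith) hM'
  nlinarith [mul_nonneg hM' (sq_nonneg W0), mul_nonneg hM' (sq_nonneg W1)]

variable (hf : Fields z f) (ht : 0 < t) (ht1 : t ≤ 1)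

omit hyE hB hP hy in
include hf in
lemma noise_maj (s : Fin n → Bool) :
    Asa S (z.a c * noise f s c) ∧ Asa S (z.a c * clipped S t f s c) :=
  ⟨Asa.mul ⟨hz.a_mem c, hz.a_sa c⟩ (noise_asa hf s c),
    Asa.mul ⟨hz.a_mem c, hz.a_sa c⟩ (clipA_asa _ _)⟩

include hf ht ht1

/-- Clipping changes the averaged second variation little. -/
lemma sum_quad_clip :
    |∑ s : Fin n → Bool, S.tr (z.wt y * (z.side y c).quad (z.a c * clipped S t f s c)) -
      (2 : ℝ) ^ n * ∑ j, S.tr (z.wt y * (z.side y c).quad (z.a c * f j c))| ≤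
    2 ^ n * (26 * (P.kap + P.lam2) * P.cQuad * P.cN * P.lamMax ^ 2 * t) := by
  have hw := hz.wt_asa
  have hm : ∀ j, Asa S (z.a c * f j c) := fun j => Asa.mul ⟨hz.a_mem c, hz.a_sa c⟩ (hf.asa j c)
  have he : (2 : ℝ) ^ n * ∑ j, S.tr (z.wt y * (z.side y c).quad (z.a c * f j c)) =
      ∑ s : Fin n → Bool, S.tr (z.wt y * (z.side y c).quad (z.a c * noise f s c)) := by
    rw [← S.tr_sum, ← S.tr_sum, ← S.tr_smul, ← Finset.mul_sum, ← Finset.mul_sum]
    congr 1
    rw [← mul_smul_comm]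
    congr 1
    simp only [noise, mul_comb]
    exact (sum_quad hB hy hz.toCore fun j => (hm j).memM).symm
  rw [he, ← Finset.sum_sub_distrib]
  set W := P.kap + P.lam2 with hW
  have hW0 : 0 ≤ W := add_nonneg hP.kap_pos.le hP.lam2_pos.le
  have hC : 0 ≤ W * P.cQuad := mul_nonneg hW0 (P.cQuad_nonneg hP)
  have hterm : ∀ s : Fin n → Bool,
      |S.tr (z.wt y * (z.side y c).quad (z.a c * clipped S t f s c)) -
        S.tr (z.wt y * (z.side y c).quad (z.a c * noise f s c))| ≤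
      W * P.cQuad * (t * (P.cN * S.tr ((z.a c * noise f s c) * (z.a c * noise f s c))) +
        (1 + t⁻¹) * (P.cN * S.tr ((z.a c * noise f s c - z.a c * clipped S t f s c) *
          (z.a c * noise f s c - z.a c * clipped S t f s c)))) := by
    intro s
    obtain ⟨ha, hb⟩ := hz.noise_maj (c := c) (t := t) hf s
    have hM1 := hz.maj_asa (c := c) hB hP hy ha
    have hM2 := hz.maj_asa (c := c) hB hP hy (ha.sub hb)
    have hR := ((hM1.smul t).add (hM2.smul (1 + t⁻¹))).smul (W * P.cQuad)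
    have hq1 := hw.mul (hz.quad_asa (c := c) hB hP hy hb)
    have hq2 := hw.mul (hz.quad_asa (c := c) hB hP hy ha)
    have hev : ∀ χ : S.Chi, |S.ev χ (z.wt y) * S.ev χ ((z.side y c).quad (z.a c * clipped S t f s c)) -
        S.ev χ (z.wt y) * S.ev χ ((z.side y c).quad (z.a c * noise f s c))| ≤
        W * P.cQuad * (t * S.ev χ (z.maj y c (z.a c * noise f s c)) +
          (1 + t⁻¹) * S.ev χ (z.maj y c (z.a c * noise f s c - z.a c * clipped S t f s c))) := by
      intro χ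
      rw [← mul_sub, abs_mul, abs_of_nonneg (hz.wt_bounds hP χ).1, abs_sub_comm,
        mul_assoc W P.cQuad]
      exact mul_le_mul (hz.wt_bounds hP χ).2.1 (hz.quad_diff hB hP hy hyE ha hb ht)
        (abs_nonneg _) hW0
    have k1 := tr_le_of_ev (hq1.sub hq2) hR fun χ => by
      rw [Asa.ev_sub hq1 hq2, Asa.ev_mul hw (hz.quad_asa hB hP hy hb),
        Asa.ev_mul hw (hz.quad_asa hB hP hy ha), ev_smul _ ((hM1.smul t).add (hM2.smul _)).1,
        Asa.ev_add (hM1.smul t) (hM2.smul _), ev_smul _ hM1.1, ev_smul _ hM2.1]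
      exact (abs_le.1 (hev χ)).2
    have k2 := tr_le_of_ev (hq2.sub hq1) hR fun χ => by
      rw [Asa.ev_sub hq2 hq1, Asa.ev_mul hw (hz.quad_asa hB hP hy hb),
        Asa.ev_mul hw (hz.quad_asa hB hP hy ha), ev_smul _ ((hM1.smul t).add (hM2.smul _)).1,
        Asa.ev_add (hM1.smul t) (hM2.smul _), ev_smul _ hM1.1, ev_smul _ hM2.1]
      linarith [(abs_le.1 (hev χ)).1]
    rw [S.tr_sub, S.tr_smul, S.tr_add, S.tr_smul, S.tr_smul] at k1 k2
    have m1 := mul_le_mul_of_nonneg_left (hz.tr_maj_le (c := c) hB hP hy ha) ht.le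
    have m2 := mul_le_mul_of_nonneg_left (hz.tr_maj_le (c := c) hB hP hy (ha.sub hb))
      (show (0 : ℝ) ≤ 1 + t⁻¹ by positivity)
    have m3 := mul_le_mul_of_nonneg_left (add_le_add m1 m2) hC
    exact abs_le.2 ⟨by linarith, by linarith⟩
  refine (Finset.abs_sum_le_sum_abs _ _).trans ((Finset.sum_le_sum fun s _ => hterm s).trans ?_)
  rw [← Finset.mul_sum, Finset.sum_add_distrib, ← Finset.mul_sum, ← Finset.mul_sum,
    ← Finset.mul_sum, ← Finset.mul_sum]
  have hCN := (P.cN_pos hP).le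
  have s1 := mul_le_mul_of_nonneg_left (hz.sum_noise_sq (c := c) hf) (mul_nonneg ht.le hCN)
  have s2 := mul_le_mul_of_nonneg_left (hz.sum_cutoff_sq (c := c) hf ht)
    (mul_nonneg (show (0 : ℝ) ≤ 1 + t⁻¹ by positivity) hCN)
  have e : (1 + t⁻¹) * (12 * P.lamMax ^ 2 * t ^ 2) ≤ 24 * P.lamMax ^ 2 * t := by
    have : (1 + t⁻¹) * t ^ 2 = t ^ 2 + t := by field_simp
    have h2 : t ^ 2 ≤ t := by nlinarith
    nlinarith [sq_nonneg P.lamMax]
  have s3 := mul_le_mul_of_nonneg_left e (mul_nonneg (show (0 : ℝ) ≤ 2 ^ n by positivity) hCN)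
  have s4 := mul_le_mul_of_nonneg_left (add_le_add (le_refl (t * P.cN * (2 ^ n * (2 * P.lamMax ^ 2)))) s3) hC
  have s5 := mul_le_mul_of_nonneg_left (add_le_add s1 s2) hC
  linarith

omit hyE hB in
/-- Clipping changes the averaged resolvent term little. -/
lemma sum_gam_clip :
    ∑ s : Fin n → Bool, S.tr (z.sup c * (z.G y c σ * (z.a c * clipped S t f s c) * z.G y c σ *
        (z.a c * clipped S t f s c) * z.G y c σ)) ≤
      2 ^ n * (∑ j, S.tr (z.sup c * (z.G y c σ * (z.a c * f j c) * z.G y c σ * (z.a c * f j c) *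
        z.G y c σ)) + 26 * P.tau⁻¹ ^ 3 * P.lamMax ^ 2 * t) := by
  have hGm := hz.toCore.G_mem hy c σ
  have hG0 := hz.G_nonneg hP c σ
  have hGn := hz.norm_G_le hP c σ
  have hsM := hz.toCore.sup_memM c
  set X := z.G y c σ * z.sup c * z.G y c σ with hX
  have hXm : X ∈ S.M := mul_mem (mul_mem hGm hsM) hGm
  have hX0 : 0 ≤ X := sandwich_nonneg (hz.toCore.sup_proj c).nonneg (hz.G_sa hP c σ)
  have hXn : ‖X‖ ≤ P.tau⁻¹ * 1 * P.tau⁻¹ := norm_mul₃_le.trans (mul_le_mul
    (mul_le_mul hGn (hz.toCore.sup_proj c).norm_le (norm_nonneg _)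
      (inv_nonneg.2 hP.tau_pos.le)) hGn (norm_nonneg _)
    (mul_nonneg (inv_nonneg.2 hP.tau_pos.le) zero_le_one))
  have ecyc : ∀ {b : Op H}, b ∈ S.M →
      S.tr (z.sup c * (z.G y c σ * b * z.G y c σ * b * z.G y c σ)) =
        S.tr (X * (b * z.G y c σ * b)) := fun {b} hb => by
    have e1 : z.sup c * (z.G y c σ * b * z.G y c σ * b * z.G y c σ) =
        z.sup c * z.G y c σ * (b * z.G y c σ * b) * z.G y c σ := by noncomm_ring
    rw [e1, S.tr_comm (mul_mem (mul_mem hsM hGm) (mul_mem (mul_mem hb hGm) hb)) hGm]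
    congr 1
  have hm : ∀ j, Asa S (z.a c * f j c) := fun j => Asa.mul ⟨hz.a_mem c, hz.a_sa c⟩ (hf.asa j c)
  have he : ∑ s : Fin n → Bool,
      S.tr (X * (z.a c * noise f s c * z.G y c σ * (z.a c * noise f s c))) =
      (2 : ℝ) ^ n * ∑ j, S.tr (X * (z.a c * f j c * z.G y c σ * (z.a c * f j c))) := by
    have key : ∑ s : Fin n → Bool, z.a c * noise f s c * z.G y c σ * (z.a c * noise f s c) =
        (2 : ℝ) ^ n • ∑ j, z.a c * f j c * z.G y c σ * (z.a c * f j c) := by
      have e : ∀ s : Fin n → Bool, z.a c * noise f s c * z.G y c σ * (z.a c * noise f s c) =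
          comb s (fun j => z.a c * f j c) * comb s (fun j => z.G y c σ * (z.a c * f j c)) := by
        intro s
        simp only [noise, mul_comb, mul_assoc]
      rw [Finset.sum_congr rfl fun s _ => e s, avg_mul]
      simp only [mul_assoc]
    rw [← S.tr_sum, ← Finset.mul_sum, ← S.tr_sum, ← S.tr_smul, ← Finset.mul_sum, ← mul_smul_comm,
      key]
  have hterm : ∀ s : Fin n → Bool,
      S.tr (X * (z.a c * clipped S t f s c * z.G y c σ * (z.a c * clipped S t f s c))) ≤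
      S.tr (X * (z.a c * noise f s c * z.G y c σ * (z.a c * noise f s c))) +
        P.tau⁻¹ ^ 3 * (t * S.tr ((z.a c * noise f s c) * (z.a c * noise f s c)) +
          (1 + t⁻¹) * S.tr ((z.a c * noise f s c - z.a c * clipped S t f s c) *
            (z.a c * noise f s c - z.a c * clipped S t f s c))) := by
    intro s
    obtain ⟨ha, hb⟩ := hz.noise_maj (c := c) (t := t) hf s
    have hq : ∀ {b : Op H}, Asa S b → b * z.G y c σ * b ∈ S.M := fun hb =>
      mul_mem (mul_mem hb.memM hGm) hb.memM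
    have k := tr_mul_mono hXm (sub_mem (hq hb) (hq ha))
      (add_mem (S.rsmul_mem_M _ (hq ha)) (S.rsmul_mem_M _ (hq (ha.sub hb)))) hX0
      (sandwich_diff_le hG0 ha.2 hb.2 ht).2
    rw [mul_sub, S.tr_sub, mul_add, S.tr_add, mul_smul_comm, S.tr_smul, mul_smul_comm,
      S.tr_smul] at k
    have n1 := mul_le_mul_of_nonneg_left
      (tr_sandwich_le hGm hG0 hGn ha.memM ha.2 hXm hX0 hXn) ht.le
    have n2 := mul_le_mul_of_nonneg_left
      (tr_sandwich_le hGm hG0 hGn (ha.sub hb).memM (ha.sub hb).2 hXm hX0 hXn)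
      (show (0 : ℝ) ≤ 1 + t⁻¹ by positivity)
    linarith
  have e0 : ∀ s : Fin n → Bool, S.tr (z.sup c * (z.G y c σ * (z.a c * clipped S t f s c) *
      z.G y c σ * (z.a c * clipped S t f s c) * z.G y c σ)) =
      S.tr (X * (z.a c * clipped S t f s c * z.G y c σ * (z.a c * clipped S t f s c))) :=
    fun s => ecyc (hz.noise_maj (c := c) (t := t) hf s).2.memM
  simp only [e0, fun j => ecyc (hm j).memM]
  refine (Finset.sum_le_sum fun s _ => hterm s).trans ?_
  rw [Finset.sum_add_distrib, he, ← Finset.mul_sum, Finset.sum_add_distrib, ← Finset.mul_sum,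
    ← Finset.mul_sum]
  have hγ : 0 ≤ P.tau⁻¹ ^ 3 := by have := hP.tau_pos; positivity
  have s1 := mul_le_mul_of_nonneg_left (hz.sum_noise_sq (c := c) hf) ht.le
  have s2 := mul_le_mul_of_nonneg_left (hz.sum_cutoff_sq (c := c) hf ht)
    (show (0 : ℝ) ≤ 1 + t⁻¹ by positivity)
  have e : (1 + t⁻¹) * (12 * P.lamMax ^ 2 * t ^ 2) ≤ 24 * P.lamMax ^ 2 * t := by
    have : (1 + t⁻¹) * t ^ 2 = t ^ 2 + t := by field_simp
    have h2 : t ^ 2 ≤ t := by nlinarith
    nlinarith [sq_nonneg P.lamMax]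
  have s3 := mul_le_mul_of_nonneg_left e (show (0 : ℝ) ≤ 2 ^ n by positivity)
  have s4 := mul_le_mul_of_nonneg_left (add_le_add s1 s2) hγ
  have s5 := mul_le_mul_of_nonneg_left s3 hγ
  linarith

omit ht1 in
/-- The square of the first variation, averaged. -/
lemma sum_lin_sq :
    ∑ s : Fin n → Bool, S.tr (z.lin y (clipped S t f s) * z.lin y (clipped S t f s)) ≤
      2 ^ n * (2 * ∑ j, S.tr ((∑ c, (z.side y c).first (z.a c * f j c)) *
          (∑ c, (z.side y c).first (z.a c * f j c))) +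
        648 * (P.r : ℝ) ^ 2 * P.lamMax ^ 6 * P.cN * t ^ 2) := by
  set A := fun j => ∑ c, (z.side y c).first (z.a c * f j c) with hA
  have hAa : ∀ j, Asa S (A j) := fun j => Asa.sum fun c _ =>
    hz.first_asa hB hP hy (Asa.mul ⟨hz.a_mem c, hz.a_sa c⟩ (hf.asa j c))
  set V := fun (s : Fin n → Bool) (c : Fin P.r) =>
    z.a c * noise f s c - z.a c * clipped S t f s c
  have hV : ∀ s c, Asa S (V s c) := fun s c =>
    ((hz.noise_maj (c := c) (t := t) hf s).1).sub ((hz.noise_maj (c := c) (t := t) hf s).2)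
  have hlin : ∀ s : Fin n → Bool,
      z.lin y (clipped S t f s) = comb s A - ∑ c, (z.side y c).first (V s c) := by
    intro s
    rw [St.lin, show comb s A = ∑ c, (z.side y c).first (z.a c * noise f s c) by
      simp only [noise, mul_comb]
      rw [Finset.sum_congr rfl fun c _ => first_comb hB hy hz.toCore s
        (fun j => (Asa.mul ⟨hz.a_mem c, hz.a_sa c⟩ (hf.asa j c)).memM)]
      simp only [hA, comb, Finset.smul_sum]
      exact Finset.sum_comm, ← Finset.sum_sub_distrib]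
    refine Finset.sum_congr rfl fun c _ => ?_
    have e : z.a c * noise f s c = z.a c * clipped S t f s c + V s c := by simp only [V]; abel
    rw [e, first_add hB hy hz.toCore (hz.noise_maj (t := t) hf s).2.memM (hV s c).memM,
      add_sub_cancel_right]
  have hr : (0 : ℝ) ≤ P.r := Nat.cast_nonneg _
  have hR : ∀ s : Fin n → Bool, Asa S ((2 : ℝ) • (comb s A * comb s A) +
      (2 * (P.r * (27 * P.lamMax ^ 4))) • ∑ c, z.maj y c (V s c)) := fun s =>
    (((comb_asa s hAa).mul (comb_asa s hAa)).smul _).add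
      ((Asa.sum fun c _ => hz.maj_asa hB hP hy (hV s c)).smul _)
  have hS : ∀ s : Fin n → Bool, Asa S (comb s A - ∑ c, (z.side y c).first (V s c)) := fun s =>
    (comb_asa s hAa).sub (Asa.sum fun c _ => hz.first_asa hB hP hy (hV s c))
  have hterm : ∀ s : Fin n → Bool,
      S.tr (z.lin y (clipped S t f s) * z.lin y (clipped S t f s)) ≤
      2 * S.tr (comb s A * comb s A) +
        2 * (P.r * (27 * P.lamMax ^ 4)) * ∑ c, P.cN * S.tr (V s c * V s c) := by
    intro s
    have k := tr_le_of_ev ((hS s).mul (hS s)) (hR s) fun χ => by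
      rw [Asa.ev_mul (hS s) (hS s), Asa.ev_add (((comb_asa s hAa).mul (comb_asa s hAa)).smul _)
        ((Asa.sum fun c _ => hz.maj_asa hB hP hy (hV s c)).smul _),
        ev_smul _ ((comb_asa s hAa).mul (comb_asa s hAa)).1,
        ev_smul _ (Asa.sum (S := S) fun c _ => hz.maj_asa hB hP hy (hV s c)).1,
        Asa.ev_mul (comb_asa s hAa) (comb_asa s hAa),
        ev_sum _ _ fun c _ => (hz.maj_asa hB hP hy (hV s c)).1,
        Asa.ev_sub (comb_asa s hAa) (Asa.sum fun c _ => hz.first_asa hB hP hy (hV s c)),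
        ev_sum _ _ fun c _ => (hz.first_asa hB hP hy (hV s c)).1]
      have c1 := sq_sum_le_card_mul_sum_sq (s := Finset.univ)
        (f := fun c => S.ev χ ((z.side y c).first (V s c)))
      rw [Finset.card_univ, Fintype.card_fin] at c1
      have c2 := mul_le_mul_of_nonneg_left (Finset.sum_le_sum fun c (_ : c ∈ Finset.univ) =>
        hz.first_sq_le (c := c) hB hP hy hyE (hV s c) χ) hr
      rw [← Finset.mul_sum] at c2
      nlinarith [sq_nonneg (S.ev χ (comb s A) + ∑ c, S.ev χ ((z.side y c).first (V s c)))]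
    rw [hlin s]
    refine k.trans ?_
    rw [S.tr_add, S.tr_smul, S.tr_smul, S.tr_sum]
    refine add_le_add le_rfl (mul_le_mul_of_nonneg_left (Finset.sum_le_sum fun c _ =>
      hz.tr_maj_le hB hP hy (hV s c)) (by positivity))
  refine (Finset.sum_le_sum fun s _ => hterm s).trans ?_
  rw [Finset.sum_add_distrib, ← Finset.mul_sum, ← Finset.mul_sum, ← S.tr_sum, avg_mul, S.tr_smul,
    S.tr_sum, Finset.sum_comm]
  have s2 : ∑ c, ∑ s : Fin n → Bool, P.cN * S.tr (V s c * V s c) ≤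
      P.r * (P.cN * (2 ^ n * (12 * P.lamMax ^ 2 * t ^ 2))) := by
    refine (Finset.sum_le_card_nsmul _ _ (P.cN * (2 ^ n * (12 * P.lamMax ^ 2 * t ^ 2)))
      fun c _ => ?_).trans (le_of_eq ?_)
    · rw [← Finset.mul_sum]
      exact mul_le_mul_of_nonneg_left (hz.sum_cutoff_sq (c := c) hf ht) (P.cN_pos hP).le
    · rw [Finset.card_univ, Fintype.card_fin, nsmul_eq_mul]
  have s3 := mul_le_mul_of_nonneg_left s2
    (show (0 : ℝ) ≤ 2 * (P.r * (27 * P.lamMax ^ 4)) by positivity)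
  linarith

end St.Strict

end Vale.Agent.P078.Tr.Iter
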