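import Vale.Agent.P078.Tr.Iter.Step.Basic
import Vale.Agent.P078.Tr.Iter.Step.Defs

/-!
# Step: the first and second variations at a live point
-/

open scoped ComplexOrder InnerProductSpace

noncomputable section

namespace Vale.Agent.P078.Tr.Iter

universe u

variable {H : Type u} [NormedAddCommGroup H] [InnerProductSpace ℂ H] [CompleteSpace H]
  {S : Tracial H}

open Tracial

/-- A self-adjoint element of `A`. -/
def Asa (S : Tracial H) (x : Op H) : Prop := x ∈ S.A ∧ IsSelfAdjoint x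

namespace Asa

variable {x y : Op H}

lemma one : Asa S (1 : Op H) := ⟨one_mem _, IsSelfAdjoint.one _⟩

lemma zero : Asa S (0 : Op H) := ⟨zero_mem _, IsSelfAdjoint.zero _⟩

lemma add (hx : Asa S x) (hy : Asa S y) : Asa S (x + y) := ⟨add_mem hx.1 hy.1, hx.2.add hy.2⟩

lemma sub (hx : Asa S x) (hy : Asa S y) : Asa S (x - y) := ⟨sub_mem hx.1 hy.1, hx.2.sub hy.2⟩

lemma neg (hx : Asa S x) : Asa S (-x) := ⟨neg_mem hx.1, hx.2.neg⟩

lemma smul (c : ℝ) (hx : Asa S x) : Asa S (c • x) :=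
  ⟨smul_real_mem c hx.1, (IsSelfAdjoint.all c).smul hx.2⟩

lemma mul (hx : Asa S x) (hy : Asa S y) : Asa S (x * y) :=
  ⟨mul_mem hx.1 hy.1, (hx.2.commute_iff hy.2).1 (S.comm _ hx.1 _ hy.1)⟩

lemma sum {ι : Type*} {s : Finset ι} {f : ι → Op H} (h : ∀ i ∈ s, Asa S (f i)) :
    Asa S (∑ i ∈ s, f i) :=
  ⟨sum_mem fun i hi => (h i hi).1, by
    rw [IsSelfAdjoint, star_sum]; exact Finset.sum_congr rfl fun i hi => (h i hi).2.star_eq⟩

lemma memM (hx : Asa S x) : x ∈ S.M := S.le _ hx.1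

lemma ev_mul (hx : Asa S x) (hy : Asa S y) (χ : S.Chi) :
    S.ev χ (x * y) = S.ev χ x * S.ev χ y := Tracial.ev_mul hx.1 hy.1 hx.2

lemma ev_add (hx : Asa S x) (hy : Asa S y) (χ : S.Chi) :
    S.ev χ (x + y) = S.ev χ x + S.ev χ y := Tracial.ev_add hx.1 hy.1

lemma ev_sub (hx : Asa S x) (hy : Asa S y) (χ : S.Chi) :
    S.ev χ (x - y) = S.ev χ x - S.ev χ y := Tracial.ev_sub hx.1 hy.1

lemma of_E (hB : Basics S) (hx : x ∈ S.M) (hs : IsSelfAdjoint x) : Asa S (S.E x) :=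
  ⟨hB.E_mem x hx, E_isSelfAdjoint hB hx hs⟩

end Asa

lemma isSelfAdjoint_conj {G b : Op H} (hG : IsSelfAdjoint G) (hb : IsSelfAdjoint b) :
    IsSelfAdjoint (G * b * G) := by
  rw [IsSelfAdjoint, star_mul, star_mul, hG.star_eq, hb.star_eq, mul_assoc]

lemma isSelfAdjoint_conj₂ {G b : Op H} (hG : IsSelfAdjoint G) (hb : IsSelfAdjoint b) :
    IsSelfAdjoint (G * b * G * b * G) := by
  have e : G * b * G * b * G = G * (b * G * b) * G := by noncomm_ring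
  rw [e]
  exact isSelfAdjoint_conj hG (isSelfAdjoint_conj hb hG)

/-- A bound for the weights on live points. -/
def Par.lamMax (P : Par) : ℝ := 1 / P.c0 + 1

/-- The constant of the quadratic bounds. -/
def Par.cQuad (P : Par) : ℝ := 12 * P.lamMax ^ 3

/-- The constant of the first order bound. -/
def Par.cLin (P : Par) : ℝ := 10 * P.lamMax ^ 2 / P.tau ^ 2

/-- The constant of the quadratic majorant. -/
def Par.cN (P : Par) : ℝ := 1 + 2 * P.tau⁻¹ ^ 3 + 2 * P.tau⁻¹ ^ 4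

namespace Par

variable {P : Par} (hP : P.Ok)
include hP

lemma one_le_lamMax : 1 ≤ P.lamMax := by
  have := one_div_pos.2 hP.c0_pos
  unfold Par.lamMax; linarith

lemma cQuad_nonneg : 0 ≤ P.cQuad := by
  have := P.one_le_lamMax hP
  unfold Par.cQuad; positivity

lemma cN_pos : 0 < P.cN := by
  have := hP.tau_pos
  unfold Par.cN; positivity

lemma cLin_nonneg : 0 ≤ P.cLin := by
  have := hP.tau_pos
  unfold Par.cLin; positivity

end Par

variable {P : Par} {y : Op H} {z : St S P.r} {c : Fin P.r} {σ : Bool} {χ : S.Chi}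

/-- The quadratic majorant. -/
def St.maj (z : St S P.r) (y : Op H) (c : Fin P.r) (b : Op H) : Op H :=
  b * b + ∑ σ, (S.E (z.G y c σ * b * z.G y c σ * b * z.G y c σ) +
    S.E (z.G y c σ * b * z.G y c σ) * S.E (z.G y c σ * b * z.G y c σ))

namespace St.Strict

variable (hB : Basics S) (hP : P.Ok) (hy : y ∈ S.M) (hyE : S.E y = 0) (hz : z.Strict P y)

include hP hz

lemma G_nonneg (c : Fin P.r) (σ : Bool) : 0 ≤ z.G y c σ := inverse_nonneg hP.tau_pos (hz.K_lo c σ)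

lemma norm_G_le (c : Fin P.r) (σ : Bool) : ‖z.G y c σ‖ ≤ P.tau⁻¹ :=
  norm_inverse_le hP.tau_pos (hz.K_lo c σ)

lemma G_sa (c : Fin P.r) (σ : Bool) : IsSelfAdjoint (z.G y c σ) :=
  IsSelfAdjoint.of_nonneg (hz.G_nonneg hP c σ)

include hB hy

lemma gi_asa : Asa S ((z.side y c).gi σ) :=
  ⟨S.inverse_mem_A (hB.E_mem _ (hz.toCore.G_mem hy c σ)),
    inverse_isSelfAdjoint (E_isSelfAdjoint hB (hz.toCore.G_mem hy c σ) (hz.G_sa hP c σ))⟩

lemma W_asa {b : Op H} (hb : Asa S b) :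
    Asa S (S.E (z.G y c σ * b * z.G y c σ)) :=
  Asa.of_E hB (mul_mem (mul_mem (hz.toCore.G_mem hy c σ) hb.memM) (hz.toCore.G_mem hy c σ))
    (isSelfAdjoint_conj (hz.G_sa hP c σ) hb.2)

lemma W2_asa {b : Op H} (hb : Asa S b) :
    Asa S (S.E (z.G y c σ * b * z.G y c σ * b * z.G y c σ)) :=
  Asa.of_E hB (mul_mem (mul_mem (mul_mem (mul_mem (hz.toCore.G_mem hy c σ) hb.memM)
    (hz.toCore.G_mem hy c σ)) hb.memM) (hz.toCore.G_mem hy c σ))
    (isSelfAdjoint_conj₂ (hz.G_sa hP c σ) hb.2)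

lemma maj_asa {b : Op H} (hb : Asa S b) : Asa S (z.maj y c b) :=
  (hb.mul hb).add (Asa.sum fun _ _ =>
    (hz.W2_asa hB hP hy hb).add ((hz.W_asa hB hP hy hb).mul (hz.W_asa hB hP hy hb)))

omit hB hy hP in
lemma e_asa : Asa S (z.side y c).e := ⟨hz.live_mem c, (hz.live_proj c).isSelfAdjoint⟩

omit hB hy hP in
lemma p_asa : Asa S (z.side y c).p := ⟨p_mem hz.toCore, p_sa hz.toCore⟩

omit hB hy hP in
lemma pot_asa : Asa S (z.side y c).pot := ⟨pot_mem hz.toCore, pot_sa hz.toCore⟩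

omit hB hy hP in
lemma pot'_asa : Asa S (z.side y c).pot' := Asa.one.add ((hz.p_asa).smul _)

lemma fz_asa : Asa S (z.side y c).fz :=
  have h : ∀ s, Asa S ((z.side y c).xi s) := fun _ =>
    Asa.sub ⟨hz.a_mem c, hz.a_sa c⟩ (hz.gi_asa hB hP hy)
  (Asa.one.sub (h false)).sub (h true)

lemma L_asa {b : Op H} (hb : Asa S b) : Asa S ((z.side y c).L σ b) :=
  hb.sub (((hz.gi_asa hB hP hy).mul (hz.gi_asa hB hP hy)).mul (hz.W_asa hB hP hy hb))

lemma xiQuad_asa {b : Op H} (hb : Asa S b) : Asa S ((z.side y c).xiQuad σ b) :=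
  (((hz.gi_asa hB hP hy).mul (hz.gi_asa hB hP hy)).mul (hz.W2_asa hB hP hy hb)).sub
    ((((hz.gi_asa hB hP hy).mul (hz.gi_asa hB hP hy)).mul (hz.gi_asa hB hP hy)).mul
      ((hz.W_asa hB hP hy hb).mul (hz.W_asa hB hP hy hb)))

lemma first_asa {b : Op H} (hb : Asa S b) : Asa S ((z.side y c).first b) :=
  (hz.e_asa).mul (Asa.sub (((hz.fz_asa hB hP hy).mul (hz.pot'_asa)).mul
    ((hz.p_asa).mul (hz.p_asa)) |>.mul hb |>.neg)
    ((hz.pot_asa).mul ((hz.L_asa hB hP hy hb).add (hz.L_asa hB hP hy hb))))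

lemma quad_asa {b : Op H} (hb : Asa S b) : Asa S ((z.side y c).quad b) :=
  have hp := hz.p_asa (c := c)
  (hz.e_asa).mul ((((hz.fz_asa hB hP hy).mul
    ((((hz.pot'_asa).mul ((hp.mul hp).mul hp)).add ((((hp.mul hp).mul hp).mul hp).smul kB)).mul
      (hb.mul hb))).sub
    ((hz.pot_asa).mul ((hz.xiQuad_asa hB hP hy hb).add (hz.xiQuad_asa hB hP hy hb)))).add
    (((hz.pot'_asa).mul (hp.mul hp)).mul
      (hb.mul ((hz.L_asa hB hP hy hb).add (hz.L_asa hB hP hy hb)))))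

lemma ev_maj {b : Op H} (hb : Asa S b) :
    S.ev χ (z.maj y c b) = S.ev χ b ^ 2 +
      ∑ σ, (S.ev χ (S.E (z.G y c σ * b * z.G y c σ * b * z.G y c σ)) +
        S.ev χ (S.E (z.G y c σ * b * z.G y c σ)) ^ 2) := by
  rw [St.maj, Asa.ev_add (hb.mul hb) (Asa.sum fun _ _ => (hz.W2_asa hB hP hy hb).add
    ((hz.W_asa hB hP hy hb).mul (hz.W_asa hB hP hy hb))), Asa.ev_mul hb hb, ← sq,
    Tracial.ev_sum _ _ fun _ _ => ((hz.W2_asa hB hP hy hb).add
      ((hz.W_asa hB hP hy hb).mul (hz.W_asa hB hP hy hb))).1]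
  congr 1
  refine Finset.sum_congr rfl fun σ _ => ?_
  rw [Asa.ev_add (hz.W2_asa hB hP hy hb) ((hz.W_asa hB hP hy hb).mul (hz.W_asa hB hP hy hb)),
    Asa.ev_mul (hz.W_asa hB hP hy hb) (hz.W_asa hB hP hy hb), ← sq]

lemma ev_W2_nonneg {b : Op H} (hb : Asa S b) :
    0 ≤ S.ev χ (S.E (z.G y c σ * b * z.G y c σ * b * z.G y c σ)) := by
  refine ev_nonneg (hz.W2_asa hB hP hy hb).1 (hB.E_nonneg _ ?_ ?_)
  · exact mul_mem (mul_mem (mul_mem (mul_mem (hz.toCore.G_mem hy c σ) hb.memM)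
      (hz.toCore.G_mem hy c σ)) hb.memM) (hz.toCore.G_mem hy c σ)
  · have e : z.G y c σ * b * z.G y c σ * b * z.G y c σ =
        z.G y c σ * (b * z.G y c σ * b) * z.G y c σ := by noncomm_ring
    rw [e]
    exact sandwich_nonneg (sandwich_nonneg (hz.G_nonneg hP c σ) hb.2) (hz.G_sa hP c σ)

lemma ev_maj_le {b : Op H} (hb : Asa S b) : S.ev χ (z.maj y c b) ≤ P.cN * ‖b‖ ^ 2 := by
  rw [hz.ev_maj hB hP hy hb]
  have hγ : 0 ≤ P.tau⁻¹ := inv_nonneg.2 hP.tau_pos.le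
  have h1 : S.ev χ b ^ 2 ≤ ‖b‖ ^ 2 := by
    rw [← sq_abs (S.ev χ b)]
    exact pow_le_pow_left₀ (abs_nonneg _) (abs_ev_le hb.1) 2
  have h2 : ∀ σ, S.ev χ (S.E (z.G y c σ * b * z.G y c σ * b * z.G y c σ)) +
      S.ev χ (S.E (z.G y c σ * b * z.G y c σ)) ^ 2 ≤
      (P.tau⁻¹ ^ 3 + P.tau⁻¹ ^ 4) * ‖b‖ ^ 2 := fun σ => by
    have hG := hz.toCore.G_mem hy c σ
    have hn := hz.norm_G_le hP c σ
    have i1 : ‖z.G y c σ * b * z.G y c σ‖ ≤ P.tau⁻¹ ^ 2 * ‖b‖ :=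
      norm_mul₃_le.trans (by
        rw [sq, mul_right_comm P.tau⁻¹ _ ‖b‖]
        gcongr)
    have i2 : ‖z.G y c σ * b * z.G y c σ * b * z.G y c σ‖ ≤ P.tau⁻¹ ^ 3 * ‖b‖ ^ 2 := by
      calc ‖z.G y c σ * b * z.G y c σ * b * z.G y c σ‖
          ≤ ‖z.G y c σ * b * z.G y c σ‖ * ‖b‖ * ‖z.G y c σ‖ := norm_mul₃_le
        _ ≤ P.tau⁻¹ ^ 2 * ‖b‖ * ‖b‖ * P.tau⁻¹ := by gcongr
        _ = _ := by ring
    have j2 := (le_abs_self _).trans ((abs_ev_le (χ := χ) (hz.W2_asa (c := c) (σ := σ) hB hP hy hb).1).trans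
      ((hB.E_norm _ (mul_mem (mul_mem (mul_mem (mul_mem hG hb.memM) hG) hb.memM) hG)).trans i2))
    have j1 := (abs_ev_le (χ := χ) (hz.W_asa (c := c) (σ := σ) hB hP hy hb).1).trans
      ((hB.E_norm _ (mul_mem (mul_mem hG hb.memM) hG)).trans i1)
    have j3 := pow_le_pow_left₀ (abs_nonneg _) j1 2
    rw [sq_abs] at j3
    nlinarith
  have h3 := add_le_add (h2 false) (h2 true)
  rw [Fintype.sum_bool, Par.cN]
  nlinarith

end St.Strict

end Vale.Agent.P078.Tr.Iter
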