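import Mathlib

/-!
# Step: the scalar inequality behind the continuity of the second variation
-/

noncomputable section

namespace Vale.Agent.P078.Tr.Iter

/-- The second variation as a function of the values `x` of `b`, `Q` of `E (G b G b G)` and `W` of
`E (G b G)`. -/
def quadVal (k1 po k3 : ℝ) (g : Bool → ℝ) (x : ℝ) (Q W : Bool → ℝ) : ℝ :=
  k1 * x ^ 2 - po * ((g false ^ 2 * Q false - g false ^ 3 * W false ^ 2) +
      (g true ^ 2 * Q true - g true ^ 3 * W true ^ 2)) +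
    k3 * (x * ((x - g false ^ 2 * W false) + (x - g true ^ 2 * W true)))

lemma sq_diff_le {s : ℝ} (hs : 0 < s) (u v : ℝ) :
    |u ^ 2 - v ^ 2| ≤ s * u ^ 2 + (1 + s⁻¹) * (u - v) ^ 2 := by
  have k1 : 0 ≤ s⁻¹ * (s * u - (u - v)) ^ 2 := mul_nonneg (inv_nonneg.2 hs.le) (sq_nonneg _)
  have k2 : 0 ≤ s⁻¹ * (s * u + (u - v)) ^ 2 := mul_nonneg (inv_nonneg.2 hs.le) (sq_nonneg _)
  have e1 : s⁻¹ * (s * u - (u - v)) ^ 2 =
      s * u ^ 2 - 2 * u * (u - v) + s⁻¹ * (u - v) ^ 2 := by field_simp; ring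
  have e2 : s⁻¹ * (s * u + (u - v)) ^ 2 =
      s * u ^ 2 + 2 * u * (u - v) + s⁻¹ * (u - v) ^ 2 := by field_simp; ring
  exact abs_le.2 ⟨by linarith [sq_nonneg (u - v)], by linarith [sq_nonneg (u - v)]⟩

lemma mul_diff_le {s : ℝ} (hs : 0 < s) (u v u' v' : ℝ) : |u * v - u' * v'| ≤
    s * (u ^ 2 + v ^ 2) + (1 + s⁻¹) * ((u - u') ^ 2 + (v - v') ^ 2) := by
  have e0 : u * v - u' * v' = ((u + v) ^ 2 - (u' + v') ^ 2) / 4 -
      ((u - v) ^ 2 - (u' - v') ^ 2) / 4 := by ring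
  rw [e0]
  refine (abs_sub _ _).trans ?_
  rw [abs_div, abs_div, abs_of_pos (show (0 : ℝ) < 4 by norm_num)]
  have h1 := sq_diff_le hs (u + v) (u' + v')
  have h2 := sq_diff_le hs (u - v) (u' - v')
  have hs1 : 0 ≤ 1 + s⁻¹ := add_nonneg zero_le_one (inv_nonneg.2 hs.le)
  have e1 : s * (u + v) ^ 2 + s * (u - v) ^ 2 = 2 * (s * (u ^ 2 + v ^ 2)) := by ring
  have e2 : (1 + s⁻¹) * (u + v - (u' + v')) ^ 2 + (1 + s⁻¹) * (u - v - (u' - v')) ^ 2 =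
      2 * ((1 + s⁻¹) * ((u - u') ^ 2 + (v - v') ^ 2)) := by ring
  linarith [mul_nonneg hs.le (add_nonneg (sq_nonneg u) (sq_nonneg v)),
    mul_nonneg hs1 (add_nonneg (sq_nonneg (u - u')) (sq_nonneg (v - v')))]

lemma quadVal_diff {s L k1 po k3 : ℝ} (hs : 0 < s) (hL : 1 ≤ L) (h1 : 0 ≤ k1 ∧ k1 ≤ 1)
    (hpo : 0 ≤ po ∧ po ≤ 1) (h3 : 0 ≤ k3 ∧ k3 ≤ 1) {g : Bool → ℝ}
    (hg : ∀ σ, 0 ≤ g σ ∧ g σ ≤ L) (x x' : ℝ) {Q Q' Qv W W' : Bool → ℝ}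
    (hQ : ∀ σ, 0 ≤ Q σ) (hQv : ∀ σ, 0 ≤ Qv σ)
    (hd : ∀ σ, |Q σ - Q' σ| ≤ s * Q σ + (1 + s⁻¹) * Qv σ) :
    |quadVal k1 po k3 g x Q W - quadVal k1 po k3 g x' Q' W'| ≤
      12 * L ^ 3 * (s * (x ^ 2 + ∑ σ, (Q σ + W σ ^ 2)) +
        (1 + s⁻¹) * ((x - x') ^ 2 + ∑ σ, (Qv σ + (W σ - W' σ) ^ 2))) := by
  have hs1 : 0 ≤ 1 + s⁻¹ := add_nonneg zero_le_one (inv_nonneg.2 hs.le)
  set N := s * (x ^ 2 + ∑ σ, (Q σ + W σ ^ 2)) +
    (1 + s⁻¹) * ((x - x') ^ 2 + ∑ σ, (Qv σ + (W σ - W' σ) ^ 2)) with hN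
  have pa : ∀ σ, 0 ≤ s * x ^ 2 ∧ 0 ≤ s * Q σ ∧ 0 ≤ s * W σ ^ 2 ∧
      0 ≤ (1 + s⁻¹) * (x - x') ^ 2 ∧ 0 ≤ (1 + s⁻¹) * Qv σ ∧
      0 ≤ (1 + s⁻¹) * (W σ - W' σ) ^ 2 := fun σ =>
    ⟨mul_nonneg hs.le (sq_nonneg _), mul_nonneg hs.le (hQ σ), mul_nonneg hs.le (sq_nonneg _),
      mul_nonneg hs1 (sq_nonneg _), mul_nonneg hs1 (hQv σ), mul_nonneg hs1 (sq_nonneg _)⟩
  have eN : N = s * x ^ 2 + (s * Q true + s * W true ^ 2) + (s * Q false + s * W false ^ 2) +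
      ((1 + s⁻¹) * (x - x') ^ 2 + ((1 + s⁻¹) * Qv true + (1 + s⁻¹) * (W true - W' true) ^ 2) +
        ((1 + s⁻¹) * Qv false + (1 + s⁻¹) * (W false - W' false) ^ 2)) := by
    rw [hN, Fintype.sum_bool, Fintype.sum_bool]; ring
  obtain ⟨a1, a2, a3, a4, a5, a6⟩ := pa true
  obtain ⟨-, b2, b3, -, b5, b6⟩ := pa false
  have hN0 : 0 ≤ N := by linarith
  have l2 : ∀ σ, g σ ^ 2 ≤ L ^ 3 := fun σ =>
    (pow_le_pow_left₀ (hg σ).1 (hg σ).2 2).trans (pow_le_pow_right₀ hL (by norm_num))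
  have l3 : ∀ σ, g σ ^ 3 ≤ L ^ 3 := fun σ => pow_le_pow_left₀ (hg σ).1 (hg σ).2 3
  have d0 : |x ^ 2 - x' ^ 2| ≤ N := (sq_diff_le hs x x').trans (by linarith)
  have dQ : ∀ σ, |Q σ - Q' σ| ≤ N := fun σ => by
    refine (hd σ).trans ?_
    cases σ <;> linarith
  have dW : ∀ σ, |W σ ^ 2 - W' σ ^ 2| ≤ N := fun σ => by
    refine (sq_diff_le hs (W σ) (W' σ)).trans ?_
    cases σ <;> linarith
  have dM : ∀ σ, |x * W σ - x' * W' σ| ≤ N := fun σ => by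
    refine (mul_diff_le hs x (W σ) x' (W' σ)).trans ?_
    cases σ <;> linarith
  have dX : ∀ σ, |(g σ ^ 2 * Q σ - g σ ^ 3 * W σ ^ 2) - (g σ ^ 2 * Q' σ - g σ ^ 3 * W' σ ^ 2)| ≤
      2 * (L ^ 3 * N) := fun σ => by
    rw [show (g σ ^ 2 * Q σ - g σ ^ 3 * W σ ^ 2) - (g σ ^ 2 * Q' σ - g σ ^ 3 * W' σ ^ 2) =
      g σ ^ 2 * (Q σ - Q' σ) - g σ ^ 3 * (W σ ^ 2 - W' σ ^ 2) by ring]
    refine (abs_sub _ _).trans ?_
    rw [abs_mul, abs_mul, abs_of_nonneg (sq_nonneg _), abs_of_nonneg (pow_nonneg (hg σ).1 3)]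
    have := mul_le_mul (l2 σ) (dQ σ) (abs_nonneg _) (by positivity)
    have := mul_le_mul (l3 σ) (dW σ) (abs_nonneg _) (by positivity)
    linarith
  have hLN : N ≤ L ^ 3 * N := le_mul_of_one_le_left hN0 (one_le_pow₀ hL)
  have dL : ∀ σ, |x * (x - g σ ^ 2 * W σ) - x' * (x' - g σ ^ 2 * W' σ)| ≤ 2 * (L ^ 3 * N) :=
    fun σ => by
    rw [show x * (x - g σ ^ 2 * W σ) - x' * (x' - g σ ^ 2 * W' σ) =
      (x ^ 2 - x' ^ 2) - g σ ^ 2 * (x * W σ - x' * W' σ) by ring]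
    refine (abs_sub _ _).trans ?_
    rw [abs_mul, abs_of_nonneg (sq_nonneg (g σ))]
    have := mul_le_mul (l2 σ) (dM σ) (abs_nonneg _) (by positivity)
    linarith
  have e : quadVal k1 po k3 g x Q W - quadVal k1 po k3 g x' Q' W' =
      k1 * (x ^ 2 - x' ^ 2) -
        po * (((g false ^ 2 * Q false - g false ^ 3 * W false ^ 2) -
              (g false ^ 2 * Q' false - g false ^ 3 * W' false ^ 2)) +
            ((g true ^ 2 * Q true - g true ^ 3 * W true ^ 2) -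
              (g true ^ 2 * Q' true - g true ^ 3 * W' true ^ 2))) +
        k3 * ((x * (x - g false ^ 2 * W false) - x' * (x' - g false ^ 2 * W' false)) +
            (x * (x - g true ^ 2 * W true) - x' * (x' - g true ^ 2 * W' true))) := by
    simp only [quadVal]; ring
  rw [e]
  refine (abs_add_le _ _).trans ((add_le_add (abs_sub _ _) le_rfl).trans ?_)
  rw [abs_mul, abs_mul, abs_mul, abs_of_nonneg h1.1, abs_of_nonneg hpo.1, abs_of_nonneg h3.1]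
  have t1 := mul_le_mul h1.2 d0 (abs_nonneg _) zero_le_one
  have t2 := mul_le_mul hpo.2 ((abs_add_le _ _).trans (add_le_add (dX false) (dX true)))
    (abs_nonneg _) zero_le_one
  have t3 := mul_le_mul h3.2 ((abs_add_le _ _).trans (add_le_add (dL false) (dL true)))
    (abs_nonneg _) zero_le_one
  linarith

end Vale.Agent.P078.Tr.Iter
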