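import Vale.Agent.P078.Tr.Iter.Step.Quad
import Vale.Agent.P078.Tr.Iter.Step.Scalar

/-!
# Step: continuity and linearity of the variations
-/

open scoped ComplexOrder InnerProductSpace

noncomputable section

namespace Vale.Agent.P078.Tr.Iter

universe u

variable {H : Type u} [NormedAddCommGroup H] [InnerProductSpace ℂ H] [CompleteSpace H]
  {S : Tracial H}

open Tracial

variable {P : Par} {y : Op H} {z : St S P.r} {c : Fin P.r} {σ : Bool} {χ : S.Chi}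

lemma quad_coef {f p : ℝ} (f0 : 0 ≤ f) (f1 : f ≤ 51 / 50) (p0 : 0 ≤ p) (p1 : p ≤ 1 / 500) :
    (0 ≤ f * ((1 + 2 * kB * p) * p ^ 3 + kB * p ^ 4) ∧
      f * ((1 + 2 * kB * p) * p ^ 3 + kB * p ^ 4) ≤ 1) ∧
    (0 ≤ (1 + 2 * kB * p) * p ^ 2 ∧ (1 + 2 * kB * p) * p ^ 2 ≤ 1) := by
  have i2 : p ^ 2 ≤ 1 / 250000 := (pow_le_pow_left₀ p0 p1 2).trans (by norm_num)
  have i3 : p ^ 3 ≤ 1 / 125000000 := (pow_le_pow_left₀ p0 p1 3).trans (by norm_num)
  have i4 : p ^ 4 ≤ 1 / 62500000000 := (pow_le_pow_left₀ p0 p1 4).trans (by norm_num)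
  rw [kB]
  have k : 1 + 2 * 204 * p ≤ 2 := by linarith
  have k0 : 0 ≤ 1 + 2 * 204 * p := by linarith
  refine ⟨⟨by positivity, ?_⟩, by positivity, ?_⟩
  · have : (1 + 2 * 204 * p) * p ^ 3 + 204 * p ^ 4 ≤ 1 / 2 := by
      have := mul_le_mul k i3 (pow_nonneg p0 3) zero_le_two
      linarith
    exact (mul_le_mul f1 this (by positivity) (by norm_num)).trans (by norm_num)
  · exact (mul_le_mul k i2 (sq_nonneg p) zero_le_two).trans (by norm_num)

namespace St.Strict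

variable (hB : Basics S) (hP : P.Ok) (hy : y ∈ S.M) (hyE : S.E y = 0) (hz : z.Strict P y)

include hB hP hy hyE hz

/-- Bounds for the coefficients at a live point. -/
lemma live_coef (hl : S.ev χ (z.live c) = 1) :
    (0 ≤ S.ev χ (z.side y c).p ∧ S.ev χ (z.side y c).p ≤ 1 / 500 ∧
      P.c0 ≤ S.ev χ (z.side y c).p) ∧
    (P.c0 ≤ S.ev χ (z.side y c).fz ∧ S.ev χ (z.side y c).fz ≤ 51 / 50) ∧
    ∀ σ, 0 ≤ S.ev χ ((z.side y c).gi σ) ∧ S.ev χ ((z.side y c).gi σ) ≤ P.lamMax := by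
  obtain ⟨ha, ha'⟩ := hz.live_a c χ hl
  have hpos : (0 : ℝ) < S.ev χ (z.a c) := by linarith
  refine ⟨?_, ⟨hz.live_fz c χ hl, (live_bounds hB hz.toCore hy hyE hP.tau_pos (hz.K_lo c) hl
    (by linarith)).2.2⟩, fun σ => ?_⟩
  · rw [ev_p hz.toCore]
    refine ⟨by positivity, by rw [one_div]; exact inv_anti₀ (by norm_num) ha, ?_⟩
    rw [le_inv_comm₀ hP.c0_pos hpos, inv_eq_one_div]
    exact ha'
  · rw [ev_gi hB hz.toCore hy hP.tau_pos (hz.K_lo c σ)]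
    refine ⟨inv_nonneg.2 (ev_g hB hz.toCore hy hP.tau_pos (hz.K_lo c σ) χ).1.le, ?_⟩
    refine (xi_ge hB hz.toCore hy hyE hP.tau_pos (hz.K_lo c σ) hl).2.trans ?_
    have := hz.live_B c σ χ hl
    unfold Par.lamMax
    linarith

omit hyE in
lemma ev_L {b : Op H} (hb : Asa S b) :
    S.ev χ ((z.side y c).L σ b) = S.ev χ b -
      S.ev χ ((z.side y c).gi σ) ^ 2 * S.ev χ (S.E (z.G y c σ * b * z.G y c σ)) := by
  have hg := hz.gi_asa (c := c) (σ := σ) hB hP hy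
  have hW := hz.W_asa (c := c) (σ := σ) hB hP hy hb
  rw [Side.L]
  change S.ev χ (b - (z.side y c).gi σ * (z.side y c).gi σ *
    S.E (z.G y c σ * b * z.G y c σ)) = _
  rw [Asa.ev_sub hb ((hg.mul hg).mul hW), Asa.ev_mul (hg.mul hg) hW, Asa.ev_mul hg hg, ← sq]

omit hyE in
lemma ev_xiQuad {b : Op H} (hb : Asa S b) :
    S.ev χ ((z.side y c).xiQuad σ b) =
      S.ev χ ((z.side y c).gi σ) ^ 2 *
          S.ev χ (S.E (z.G y c σ * b * z.G y c σ * b * z.G y c σ)) -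
        S.ev χ ((z.side y c).gi σ) ^ 3 * S.ev χ (S.E (z.G y c σ * b * z.G y c σ)) ^ 2 := by
  have hg := hz.gi_asa (c := c) (σ := σ) hB hP hy
  have hW := hz.W_asa (c := c) (σ := σ) hB hP hy hb
  have hQ := hz.W2_asa (c := c) (σ := σ) hB hP hy hb
  rw [Side.xiQuad]
  change S.ev χ ((z.side y c).gi σ * (z.side y c).gi σ *
      S.E (z.G y c σ * b * z.G y c σ * b * z.G y c σ) -
      (z.side y c).gi σ * (z.side y c).gi σ * (z.side y c).gi σ *
        (S.E (z.G y c σ * b * z.G y c σ) * S.E (z.G y c σ * b * z.G y c σ))) = _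
  rw [Asa.ev_sub ((hg.mul hg).mul hQ) (((hg.mul hg).mul hg).mul (hW.mul hW)),
    Asa.ev_mul (hg.mul hg) hQ, Asa.ev_mul ((hg.mul hg).mul hg) (hW.mul hW), Asa.ev_mul hW hW,
    Asa.ev_mul (hg.mul hg) hg, Asa.ev_mul hg hg]
  ring

omit hB hy hyE hP in
lemma ev_pot' : S.ev χ (z.side y c).pot' = 1 + 2 * kB * S.ev χ (z.side y c).p := by
  rw [Side.pot', Asa.ev_add Asa.one (hz.p_asa.smul _), ev_one, ev_smul _ hz.p_asa.1]

omit hyE in
lemma ev_first {b : Op H} (hb : Asa S b) :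
    S.ev χ ((z.side y c).first b) = S.ev χ (z.live c) *
      (-(S.ev χ (z.side y c).fz * S.ev χ (z.side y c).pot' * S.ev χ (z.side y c).p ^ 2 *
          S.ev χ b) -
        S.ev χ (z.side y c).pot *
          (S.ev χ ((z.side y c).L false b) + S.ev χ ((z.side y c).L true b))) := by
  have hp := hz.p_asa (y := y) (c := c)
  have hf := hz.fz_asa (c := c) hB hP hy
  have hL : ∀ σ, Asa S ((z.side y c).L σ b) := fun _ => hz.L_asa hB hP hy hb
  have h1 := ((hf.mul (hz.pot'_asa (y := y) (c := c))).mul (hp.mul hp)).mul hb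
  rw [Side.first, Asa.ev_mul hz.e_asa (h1.neg.sub ((hz.pot_asa (y := y) (c := c)).mul ((hL false).add (hL true)))),
    Asa.ev_sub h1.neg ((hz.pot_asa (y := y) (c := c)).mul ((hL false).add (hL true))), Tracial.ev_neg h1.1,
    Asa.ev_mul ((hf.mul (hz.pot'_asa (y := y) (c := c))).mul (hp.mul hp)) hb,
    Asa.ev_mul (hf.mul (hz.pot'_asa (y := y) (c := c))) (hp.mul hp), Asa.ev_mul hf (hz.pot'_asa (y := y) (c := c)), Asa.ev_mul hp hp,
    Asa.ev_mul (hz.pot_asa (y := y) (c := c)) ((hL false).add (hL true)), Asa.ev_add (hL false) (hL true), ← sq]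
  rfl

omit hyE in
lemma ev_quad {b : Op H} (hb : Asa S b) :
    S.ev χ ((z.side y c).quad b) = S.ev χ (z.live c) *
      (S.ev χ (z.side y c).fz * ((S.ev χ (z.side y c).pot' * S.ev χ (z.side y c).p ^ 3 +
          kB * S.ev χ (z.side y c).p ^ 4) * S.ev χ b ^ 2) -
        S.ev χ (z.side y c).pot *
          (S.ev χ ((z.side y c).xiQuad false b) + S.ev χ ((z.side y c).xiQuad true b)) +
        S.ev χ (z.side y c).pot' * S.ev χ (z.side y c).p ^ 2 * (S.ev χ b *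
          (S.ev χ ((z.side y c).L false b) + S.ev χ ((z.side y c).L true b)))) := by
  have hp := hz.p_asa (y := y) (c := c)
  have hf := hz.fz_asa (c := c) hB hP hy
  have hL : ∀ σ, Asa S ((z.side y c).L σ b) := fun _ => hz.L_asa hB hP hy hb
  have hQ : ∀ σ, Asa S ((z.side y c).xiQuad σ b) := fun _ => hz.xiQuad_asa hB hP hy hb
  have hc := (hz.pot'_asa (y := y) (c := c)).mul ((hp.mul hp).mul hp) |>.add
    ((((hp.mul hp).mul hp).mul hp).smul kB)
  have h1 := hf.mul (hc.mul (hb.mul hb))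
  have h2 := (hz.pot_asa (y := y) (c := c)).mul ((hQ false).add (hQ true))
  have h3 := ((hz.pot'_asa (y := y) (c := c)).mul (hp.mul hp)).mul
    (hb.mul ((hL false).add (hL true)))
  rw [Side.quad, Asa.ev_mul hz.e_asa ((h1.sub h2).add h3), Asa.ev_add (h1.sub h2) h3,
    Asa.ev_sub h1 h2, Asa.ev_mul hf (hc.mul (hb.mul hb)), Asa.ev_mul hc (hb.mul hb),
    Asa.ev_add ((hz.pot'_asa).mul ((hp.mul hp).mul hp)) ((((hp.mul hp).mul hp).mul hp).smul kB),
    Asa.ev_mul hz.pot'_asa ((hp.mul hp).mul hp), Tracial.ev_smul _ (((hp.mul hp).mul hp).mul hp).1,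
    Asa.ev_mul ((hp.mul hp).mul hp) hp, Asa.ev_mul (hp.mul hp) hp, Asa.ev_mul hb hb,
    Asa.ev_mul hz.pot_asa ((hQ false).add (hQ true)), Asa.ev_add (hQ false) (hQ true),
    Asa.ev_mul ((hz.pot'_asa).mul (hp.mul hp)) (hb.mul ((hL false).add (hL true))),
    Asa.ev_mul hz.pot'_asa (hp.mul hp), Asa.ev_mul hp hp,
    Asa.ev_mul hb ((hL false).add (hL true)), Asa.ev_add (hL false) (hL true)]
  rw [show (z.side y c).e = z.live c from rfl]
  ring

omit hyE hP in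
lemma W_sub {a b : Op H} (ha : Asa S a) (hb : Asa S b) :
    S.E (z.G y c σ * (a - b) * z.G y c σ) =
      S.E (z.G y c σ * a * z.G y c σ) - S.E (z.G y c σ * b * z.G y c σ) := by
  have hG := hz.toCore.G_mem hy c σ
  rw [mul_sub, sub_mul, E_sub hB (mul_mem (mul_mem hG ha.memM) hG)
    (mul_mem (mul_mem hG hb.memM) hG)]

omit hyE in
lemma ev_W2_diff {a b : Op H} (ha : Asa S a) (hb : Asa S b) {s : ℝ} (hs : 0 < s) :
    |S.ev χ (S.E (z.G y c σ * a * z.G y c σ * a * z.G y c σ)) -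
      S.ev χ (S.E (z.G y c σ * b * z.G y c σ * b * z.G y c σ))| ≤
    s * S.ev χ (S.E (z.G y c σ * a * z.G y c σ * a * z.G y c σ)) +
      (1 + s⁻¹) * S.ev χ (S.E (z.G y c σ * (a - b) * z.G y c σ * (a - b) * z.G y c σ)) := by
  have hG := hz.toCore.G_mem hy c σ
  have hGs := hz.G_sa hP c σ
  have hm : ∀ {u : Op H}, Asa S u → z.G y c σ * u * z.G y c σ * u * z.G y c σ ∈ S.M := fun hu =>
    mul_mem (mul_mem (mul_mem (mul_mem hG hu.memM) hG) hu.memM) hG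
  have he : ∀ u : Op H, z.G y c σ * u * z.G y c σ * u * z.G y c σ =
      z.G y c σ * (u * z.G y c σ * u) * z.G y c σ := fun u => by noncomm_ring
  obtain ⟨h1, h2⟩ := sandwich_diff_le (hz.G_nonneg hP c σ) ha.2 hb.2 hs
  have A1 := hz.W2_asa (c := c) (σ := σ) hB hP hy ha
  have A2 := hz.W2_asa (c := c) (σ := σ) hB hP hy hb
  have A3 := hz.W2_asa (c := c) (σ := σ) hB hP hy (ha.sub hb)
  set X := z.G y c σ * a * z.G y c σ * a * z.G y c σ with hX
  set Y := z.G y c σ * b * z.G y c σ * b * z.G y c σ with hY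
  set V := z.G y c σ * (a - b) * z.G y c σ * (a - b) * z.G y c σ with hV
  have r1 : X ∈ S.M := hm ha
  have r2 : Y ∈ S.M := hm hb
  have r3 : V ∈ S.M := hm (ha.sub hb)
  have key : ∀ {L : Op H}, L ∈ S.M → L ≤ s • X + (1 + s⁻¹) • V →
      S.E L ≤ s • S.E X + (1 + s⁻¹) • S.E V := fun hL h => by
    have := E_mono hB hL (add_mem (S.rsmul_mem_M _ r1) (S.rsmul_mem_M _ r3)) h
    rwa [hB.E_add _ (S.rsmul_mem_M _ r1) _ (S.rsmul_mem_M _ r3), E_rsmul hB _ r1,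
      E_rsmul hB _ r3] at this
  have conj : ∀ {l r : Op H}, l ≤ r →
      z.G y c σ * l * z.G y c σ ≤ z.G y c σ * r * z.G y c σ := fun h => by
    have := star_left_conjugate_le_conjugate h (z.G y c σ)
    rwa [hGs.star_eq] at this
  have k1 := key (sub_mem r1 r2) (by
    rw [hX, hY, hV, he a, he b, he (a - b), ← sub_mul, ← mul_sub]
    refine (conj h1).trans (le_of_eq ?_)
    simp only [mul_add, add_mul, mul_smul_comm, smul_mul_assoc])
  have k2 := key (sub_mem r2 r1) (by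
    rw [hX, hY, hV, he a, he b, he (a - b), ← sub_mul, ← mul_sub]
    refine (conj h2).trans (le_of_eq ?_)
    simp only [mul_add, add_mul, mul_smul_comm, smul_mul_assoc])
  rw [E_sub hB r1 r2] at k1
  rw [E_sub hB r2 r1] at k2
  have R := (A1.smul s).add (A3.smul (1 + s⁻¹))
  have e1 := ev_le (χ := χ) (A1.sub A2).1 R.1 (A1.sub A2).2 k1
  have e2 := ev_le (χ := χ) (A2.sub A1).1 R.1 (A2.sub A1).2 k2
  rw [Asa.ev_sub A1 A2, Asa.ev_add (A1.smul s) (A3.smul _), Tracial.ev_smul _ A1.1,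
    Tracial.ev_smul _ A3.1] at e1
  rw [Asa.ev_sub A2 A1, Asa.ev_add (A1.smul s) (A3.smul _), Tracial.ev_smul _ A1.1,
    Tracial.ev_smul _ A3.1] at e2
  exact abs_le.2 ⟨by linarith, e1⟩

lemma first_le {b : Op H} (hb : Asa S b) :
    |S.ev χ ((z.side y c).first b)| ≤ P.cLin * ‖b‖ := by
  rw [hz.ev_first hB hP hy hb, abs_mul]
  rcases hz.toCore.ev_live c χ with e | e
  · rw [e, abs_zero, zero_mul]
    exact mul_nonneg (P.cLin_nonneg hP) (norm_nonneg _)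
  obtain ⟨⟨p0, p1, -⟩, ⟨f0, f1⟩, hg⟩ := hz.live_coef hB hP hy hyE e
  rw [e, abs_one, one_mul]
  have hγ1 : 1 ≤ P.tau⁻¹ := one_le_inv_iff₀.2 ⟨hP.tau_pos, by linarith [hP.tau_le]⟩
  have hlam := P.one_le_lamMax hP
  have hbn := abs_ev_le (χ := χ) hb.1
  have hLb : ∀ σ, |S.ev χ ((z.side y c).L σ b)| ≤ 2 * (P.lamMax ^ 2 * P.tau⁻¹ ^ 2) * ‖b‖ := by
    intro σ
    rw [hz.ev_L hB hP hy hb]
    have hW : |S.ev χ (S.E (z.G y c σ * b * z.G y c σ))| ≤ P.tau⁻¹ ^ 2 * ‖b‖ := by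
      refine (abs_ev_le (hz.W_asa hB hP hy hb).1).trans ((hB.E_norm _ (mul_mem (mul_mem
        (hz.toCore.G_mem hy c σ) hb.memM) (hz.toCore.G_mem hy c σ))).trans (norm_mul₃_le.trans ?_))
      rw [sq, mul_right_comm P.tau⁻¹ _ ‖b‖]
      gcongr <;> exact hz.norm_G_le hP c σ
    have h1 : |S.ev χ ((z.side y c).gi σ) ^ 2 * S.ev χ (S.E (z.G y c σ * b * z.G y c σ))| ≤
        P.lamMax ^ 2 * (P.tau⁻¹ ^ 2 * ‖b‖) := by
      rw [abs_mul, abs_of_nonneg (sq_nonneg _)]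
      exact mul_le_mul (pow_le_pow_left₀ (hg σ).1 (hg σ).2 2) hW (abs_nonneg _) (by positivity)
    have h2 : ‖b‖ ≤ P.lamMax ^ 2 * P.tau⁻¹ ^ 2 * ‖b‖ :=
      le_mul_of_one_le_left (norm_nonneg b)
        (one_le_mul_of_one_le_of_one_le (one_le_pow₀ hlam) (one_le_pow₀ hγ1))
    refine (abs_sub _ _).trans ?_
    linarith
  have hpot : 0 ≤ S.ev χ (z.side y c).pot ∧ S.ev χ (z.side y c).pot ≤ 1 := by
    obtain ⟨h0, h1, -⟩ := live_bounds hB hz.toCore hy hyE hP.tau_pos (hz.K_lo c) e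
      (by linarith [(hz.live_a c χ e).1])
    exact ⟨h0, by linarith⟩
  have h1 : |S.ev χ (z.side y c).fz * S.ev χ (z.side y c).pot' * S.ev χ (z.side y c).p ^ 2 *
      S.ev χ b| ≤ 1 * ‖b‖ := by
    rw [abs_mul]
    refine mul_le_mul ?_ hbn (abs_nonneg _) zero_le_one
    have hf0 : 0 ≤ S.ev χ (z.side y c).fz := le_trans hP.c0_pos.le f0
    rw [hz.ev_pot', kB, abs_of_nonneg (by positivity)]
    have hp2 : S.ev χ (z.side y c).p ^ 2 ≤ 1 / 4 := by nlinarith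
    have : S.ev χ (z.side y c).fz * (1 + 2 * 204 * S.ev χ (z.side y c).p) ≤ 4 := by nlinarith
    calc _ ≤ 4 * (1 / 4 : ℝ) := by gcongr
      _ = 1 := by norm_num
  have h2 : |S.ev χ (z.side y c).pot *
      (S.ev χ ((z.side y c).L false b) + S.ev χ ((z.side y c).L true b))| ≤
      1 * (2 * (2 * (P.lamMax ^ 2 * P.tau⁻¹ ^ 2) * ‖b‖)) := by
    rw [abs_mul, abs_of_nonneg hpot.1]
    refine mul_le_mul hpot.2 ((abs_add_le _ _).trans ?_) (abs_nonneg _) zero_le_one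
    linarith [hLb false, hLb true]
  have h3 : ‖b‖ ≤ P.lamMax ^ 2 * P.tau⁻¹ ^ 2 * ‖b‖ :=
    le_mul_of_one_le_left (norm_nonneg b)
      (one_le_mul_of_one_le_of_one_le (one_le_pow₀ hlam) (one_le_pow₀ hγ1))
  refine (abs_sub _ _).trans ?_
  rw [abs_neg, Par.cLin, div_eq_mul_inv, ← inv_pow]
  linarith [norm_nonneg b]

lemma quad_diff {a b : Op H} (ha : Asa S a) (hb : Asa S b) {s : ℝ} (hs : 0 < s) :
    |S.ev χ ((z.side y c).quad a) - S.ev χ ((z.side y c).quad b)| ≤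
      P.cQuad * (s * S.ev χ (z.maj y c a) + (1 + s⁻¹) * S.ev χ (z.maj y c (a - b))) := by
  have hab := ha.sub hb
  have hQn : ∀ {u : Op H}, Asa S u → ∀ σ,
      0 ≤ S.ev χ (S.E (z.G y c σ * u * z.G y c σ * u * z.G y c σ)) := fun hu σ =>
    hz.ev_W2_nonneg hB hP hy hu
  have hN : ∀ {u : Op H}, Asa S u → 0 ≤ S.ev χ (z.maj y c u) := fun {u} hu => by
    rw [hz.ev_maj hB hP hy hu]
    exact add_nonneg (sq_nonneg _) (Finset.sum_nonneg fun σ _ => add_nonneg (hQn hu σ) (sq_nonneg _))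
  rw [hz.ev_quad hB hP hy ha, hz.ev_quad hB hP hy hb, ← mul_sub, abs_mul]
  rcases hz.toCore.ev_live c χ with e | e
  · rw [e, abs_zero, zero_mul]
    have := hN ha
    have := hN hab
    have := P.cQuad_nonneg hP
    positivity
  rw [e, abs_one, one_mul]
  obtain ⟨⟨p0, p1, -⟩, ⟨f0, f1⟩, hg⟩ := hz.live_coef hB hP hy hyE e
  obtain ⟨po0, po1, -⟩ := live_bounds hB hz.toCore hy hyE hP.tau_pos (hz.K_lo c) e
    (by linarith [(hz.live_a c χ e).1])
  have hf0 : 0 ≤ S.ev χ (z.side y c).fz := le_trans hP.c0_pos.le f0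
  have c1 := quad_coef hf0 f1 p0 p1
  rw [← hz.ev_pot' (χ := χ)] at c1
  have hW : ∀ σ, S.ev χ (S.E (z.G y c σ * (a - b) * z.G y c σ)) =
      S.ev χ (S.E (z.G y c σ * a * z.G y c σ)) - S.ev χ (S.E (z.G y c σ * b * z.G y c σ)) :=
    fun σ => by
      rw [hz.W_sub hB hy ha hb, Asa.ev_sub (hz.W_asa hB hP hy ha) (hz.W_asa hB hP hy hb)]
  have key := quadVal_diff (g := fun σ => S.ev χ ((z.side y c).gi σ)) hs (P.one_le_lamMax hP)
    c1.1 ⟨po0, le_trans po1 (by norm_num)⟩ c1.2 hg (S.ev χ a) (S.ev χ b)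
    (Q := fun σ => S.ev χ (S.E (z.G y c σ * a * z.G y c σ * a * z.G y c σ)))
    (Q' := fun σ => S.ev χ (S.E (z.G y c σ * b * z.G y c σ * b * z.G y c σ)))
    (Qv := fun σ => S.ev χ (S.E (z.G y c σ * (a - b) * z.G y c σ * (a - b) * z.G y c σ)))
    (W := fun σ => S.ev χ (S.E (z.G y c σ * a * z.G y c σ)))
    (W' := fun σ => S.ev χ (S.E (z.G y c σ * b * z.G y c σ)))
    (hQn ha) (hQn hab) fun σ => hz.ev_W2_diff hB hP hy ha hb hs
  rw [hz.ev_maj hB hP hy ha, hz.ev_maj hB hP hy hab, Asa.ev_sub ha hb]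
  simp only [Fintype.sum_bool, hW] at key ⊢
  rw [hz.ev_xiQuad hB hP hy ha, hz.ev_xiQuad hB hP hy ha, hz.ev_xiQuad hB hP hy hb,
    hz.ev_xiQuad hB hP hy hb, hz.ev_L hB hP hy ha, hz.ev_L hB hP hy ha, hz.ev_L hB hP hy hb,
    hz.ev_L hB hP hy hb, ← mul_assoc, ← mul_assoc (S.ev χ (z.side y c).fz)]
  exact key

lemma quad_le {b : Op H} (hb : Asa S b) :
    |S.ev χ ((z.side y c).quad b)| ≤ 3 * P.cQuad * P.cN * ‖b‖ ^ 2 := by
  have h := hz.quad_diff (c := c) (χ := χ) hB hP hy hyE hb Asa.zero one_pos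
  have e : S.ev χ ((z.side y c).quad 0) = 0 := by
    simp [Side.quad, Side.xiQuad, Side.L, E_zero hB]
  rw [e, sub_zero, sub_zero, inv_one, one_mul] at h
  refine h.trans ?_
  have := mul_le_mul_of_nonneg_left (hz.ev_maj_le (c := c) (χ := χ) hB hP hy hb) (P.cQuad_nonneg hP)
  linarith

end St.Strict

end Vale.Agent.P078.Tr.Iter
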